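/-
Row 210 (S0432), layer FO (first order differentiation formula), architect helper920.   DEFINITIONS.
Contract and paper proof: `git show origin/helper928:docs/R210_wave2.md` (section FO);
detailed plan of the layer: `git show origin/helper920:docs/R210_FO_plan.md`.
-/
import Claimed.Agent.R210.Defs

set_option autoImplicit false

open Claims.C0366 Claims.C0366.WeakHessian
open Set Filter MeasureTheory
open scoped ENNReal NNReal Topology

namespace Claimed.Agent.R210.FO.Defs

open Claimed.Agent.R210.Defs

noncomputable section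

variable {X : Type*} [MetricSpace X] [MeasurableSpace X] [BorelSpace X]

/-- the marginal of the plan `π` at the REAL time `t` (clamped to `[0,1]`);
by definition `fo_mu π t = Measure.map (fun γ => evalReal γ t) π`. -/
def fo_mu (π : Measure (Curve X)) (t : ℝ) : Measure X := interpolation π (clampTime t)

/-- ascending slope `limsup_{z → x} (f z - f x)⁺ / d(z,x)`. -/
def fo_asc (f : X → ℝ) (x : X) : ℝ≥0∞ :=
  Filter.limsup (fun z => ENNReal.ofReal ((f z - f x) / dist z x)) (𝓝[≠] x)

/-- `ν` is a "sub-intermediate point" of `(μ₀, μ₁)` with parameter `s` (implied by `Defs.IsInter`;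
by the triangle inequality it is equivalent to it, but we never need that). -/
def fo_SubInter (μ₀ μ₁ ν : Measure X) (s : ℝ) : Prop :=
  W2sq μ₀ ν ≤ ENNReal.ofReal (s ^ 2) * W2sq μ₀ μ₁ ∧
  W2sq ν μ₁ ≤ ENNReal.ofReal ((1 - s) ^ 2) * W2sq μ₀ μ₁

/-- hygiene. -/
theorem fo_defs_hygiene : True := by
  have := @fo_mu.eq_1.{0}
  have := @fo_asc.eq_1.{0}
  have := @fo_SubInter.eq_1.{0}
  trivial

end

end Claimed.Agent.R210.FO.Defs
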