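/-
Row 210 (S0432), layer FO, architect helper920.   UPSTREAM FACTS (exports of TP / GCB / OT in the form used in this layer).
-/
import Claimed.Agent.R210.FO.Defs
import Claimed.Agent.R210.TP.Ifc
import Claimed.Agent.R210.GCB.Ifc
import Claimed.Agent.R210.OT.Ifc

set_option autoImplicit false
set_option linter.unusedSectionVars false

open Claims.C0366 Claims.C0366.WeakHessian
open Set Filter MeasureTheory
open scoped ENNReal NNReal Topology

namespace Claimed.Agent.R210.FO.Need

open Claimed.Agent.R210.Defs Claimed.Agent.R210.FO.Defs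

variable {X : Type*} [MetricSpace X] [MeasurableSpace X] [BorelSpace X]
  [CompleteSpace X] [TopologicalSpace.SeparableSpace X] [ProperSpace X]
variable {m : Measure X} {K N : ℝ}

/-- TP3 / GC-C: `LocalSobolev` is stable under sums. -/
theorem fo_need_add (hS : Std m K N) {f g : X → ℝ} (hf : LocalSobolev m f) (hg : LocalSobolev m g) :
    LocalSobolev m (fun x => f x + g x) := TP.Ifc.tp_localSobolev_add hS.finite hf hg

/-- TP3 / GC-C: `LocalSobolev` is stable under multiplication by constants. -/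
theorem fo_need_const_mul (hS : Std m K N) (c : ℝ) {f : X → ℝ} (hf : LocalSobolev m f) :
    LocalSobolev m (fun x => c * f x) := TP.Ifc.tp_localSobolev_const_mul hS.finite c hf

/-- TP3 / GC-C: `LocalSobolev` is stable under differences. -/
theorem fo_need_sub (hS : Std m K N) {f g : X → ℝ} (hf : LocalSobolev m f) (hg : LocalSobolev m g) :
    LocalSobolev m (fun x => f x - g x) := TP.Ifc.tp_localSobolev_sub hS.finite hf hg

/-- TP3 / GC-C: `LocalSobolev` is stable under `f ↦ -f`. -/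
theorem fo_need_neg (hS : Std m K N) {f : X → ℝ} (hf : LocalSobolev m f) :
    LocalSobolev m (fun x => -f x) := TP.Ifc.tp_localSobolev_neg hS.finite hf

/-- GC-B (bilinearity and symmetry of `gamma`, `gamma f f = |Df|²`):
`|D(a + e g)|² = |Da|² + 2 e Γ(g,a) + e² |Dg|²` a.e. -/
theorem fo_need_expand (hS : Std m K N) {a g : X → ℝ} (ha : LocalSobolev m a)
    (hg : LocalSobolev m g) (e : ℝ) :
    ∀ᵐ x ∂m, weakGradient m (fun y => a y + e * g y) x ^ 2
      = weakGradient m a x ^ 2 + 2 * e * gamma m g a x + e ^ 2 * weakGradient m g x ^ 2 := by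
  rw [GCB.IfcA.gcb_gamma_comm m g a]
  exact GCB.Ifc.gcb_wg_sq_add_smul hS ha hg e

/-- GC-B: `Γ(-g,a) = -Γ(g,a)` a.e. -/
theorem fo_need_gamma_neg (hS : Std m K N) {a g : X → ℝ} (ha : LocalSobolev m a)
    (hg : LocalSobolev m g) :
    ∀ᵐ x ∂m, gamma m (fun y => -g y) a x = -gamma m g a x := by
  rw [GCB.IfcA.gcb_gamma_neg_left m g a]
  exact Eventually.of_forall fun _ => rfl

/-- TP4 / GC-C: Lipschitz functions are `LocalSobolev`. -/
theorem fo_need_lip (hS : Std m K N) {f : X → ℝ} (hf : GloballyLipschitz f) :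
    LocalSobolev m f := by
  obtain ⟨L, hL⟩ := hf
  exact TP.Ifc.tp_localSobolev_of_lipOnBdd hS.finite (TP.Ifc.tp_lipOnBdd_of_lipschitz hL)

/-- TP4: for a Lipschitz function the ASCENDING slope bounds the weak gradient a.e. -/
theorem fo_need_asc (hS : Std m K N) {f : X → ℝ} (hf : GloballyLipschitz f) :
    ∀ᵐ x ∂m, ENNReal.ofReal (weakGradient m f x) ≤ fo_asc f x := by
  obtain ⟨L, hL⟩ := hf
  exact TP.Ifc.tp_weakGradient_le_slopeUp hS.finite (TP.Ifc.tp_lipOnBdd_of_lipschitz hL)

/-- OT2: triangle inequality for `W₂` (here only for bounded densities on one ball). -/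
theorem fo_need_tri {μ₁ μ₂ μ₃ : Measure X} {M : ℝ≥0} {o : X} {R : ℝ}
    (h1 : BddDens m μ₁ M o R) (h2 : BddDens m μ₂ M o R) (h3 : BddDens m μ₃ M o R) :
    Real.sqrt (W2sqR μ₁ μ₃) ≤ Real.sqrt (W2sqR μ₁ μ₂) + Real.sqrt (W2sqR μ₂ μ₃) :=
  OT.Ifc.ot_triangle_bddDens h1 h2 h3

end Claimed.Agent.R210.FO.Need
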