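/-
Row 210 (S0432), layer FO, architect helper920.   BASIC FACTS: `BddDens`, integrability, weak gradient.
All statements are elementary measure theory (no curvature).
-/
import Claimed.Agent.R210.FO.Need
import Claimed.Agent.R210.CU.Ifc

set_option autoImplicit false
set_option linter.unusedSectionVars false

open Claims.C0366 Claims.C0366.WeakHessian
open Set Filter MeasureTheory
open scoped ENNReal NNReal Topology

namespace Claimed.Agent.R210.FO.Basic

open Claimed.Agent.R210.Defs Claimed.Agent.R210.FO.Defs Claimed.Agent.R210.FO.Need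

variable {X : Type*} [MetricSpace X] [MeasurableSpace X] [BorelSpace X]
  [CompleteSpace X] [TopologicalSpace.SeparableSpace X] [ProperSpace X]
variable {m μ : Measure X} {K N R R' : ℝ} {M M' : ℝ≥0} {o : X}

/-! ### `BddDens` -/

/-- monotonicity of `BddDens` in the constant and in the radius. -/
theorem fo_bdd_mono (h : BddDens m μ M o R) (hM : M ≤ M') (hR : R ≤ R') : BddDens m μ M' o R' := by
  refine ⟨h.prob, h.le.trans (Measure.le_iff'.2 fun s => ?_),
    measure_mono_null (compl_subset_compl.2 (Metric.closedBall_subset_closedBall hR)) h.conc⟩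
  simp only [Measure.smul_apply, smul_eq_mul]
  gcongr

/-- the radius of a `BddDens` is nonnegative (the closed ball is not empty). -/
theorem fo_bdd_radius_nonneg (h : BddDens m μ M o R) : 0 ≤ R := by
  by_contra hR
  have hprob := h.prob
  have h1 : Metric.closedBall o R = ∅ := Metric.closedBall_eq_empty.2 (not_le.1 hR)
  have h2 := h.conc
  rw [h1, compl_empty, measure_univ] at h2
  exact one_ne_zero h2

theorem fo_bdd_ac (h : BddDens m μ M o R) : μ ≪ m := by
  exact Measure.absolutelyContinuous_of_le_smul h.le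

/-- a.e. on the ball w.r.t. `m` implies a.e. w.r.t. `μ`. -/
theorem fo_bdd_ae (h : BddDens m μ M o R) {P : X → Prop} (hP : ∀ᵐ x ∂m, P x) : ∀ᵐ x ∂μ, P x := by
  exact (fo_bdd_ac h).ae_le hP

theorem fo_bdd_ae_mem (h : BddDens m μ M o R) : ∀ᵐ x ∂μ, x ∈ Metric.closedBall o R := by
  exact mem_ae_iff.2 h.conc

/-- `μ ≤ M • m.restrict (closedBall o R)`. -/
theorem fo_bdd_le_restrict (h : BddDens m μ M o R) :
    μ ≤ (M : ℝ≥0∞) • m.restrict (Metric.closedBall o R) := by
  refine Measure.le_iff.2 fun s hs => ?_
  have h1 : μ s ≤ μ (s ∩ Metric.closedBall o R) + μ (Metric.closedBall o R)ᶜ := by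
    refine (measure_mono fun x hx => ?_).trans (measure_union_le _ _)
    by_cases hxB : x ∈ Metric.closedBall o R
    · exact Or.inl ⟨hx, hxB⟩
    · exact Or.inr hxB
  rw [h.conc, add_zero] at h1
  refine h1.trans ?_
  have h2 := h.le (s ∩ Metric.closedBall o R)
  simpa only [Measure.smul_apply, smul_eq_mul, Measure.restrict_apply hs] using h2

/-- integrable on the ball w.r.t. `m` implies integrable w.r.t. `μ`. -/
theorem fo_bdd_integrable (h : BddDens m μ M o R) {ψ : X → ℝ}
    (hψ : IntegrableOn ψ (Metric.closedBall o R) m) : Integrable ψ μ := by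
  exact (Integrable.smul_measure hψ ENNReal.coe_ne_top).mono_measure (fo_bdd_le_restrict h)

/-- `∫ |ψ| dμ ≤ M ∫_ball |ψ| dm`. -/
theorem fo_bdd_integral_abs_le (h : BddDens m μ M o R) {ψ : X → ℝ}
    (hψ : IntegrableOn ψ (Metric.closedBall o R) m) :
    ∫ x, |ψ x| ∂μ ≤ M * ∫ x in Metric.closedBall o R, |ψ x| ∂m := by
  have h1 : Integrable (fun x => |ψ x|) ((M : ℝ≥0∞) • m.restrict (Metric.closedBall o R)) :=
    (Integrable.smul_measure hψ ENNReal.coe_ne_top).abs
  have h2 := integral_mono_measure (fo_bdd_le_restrict h)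
    (Eventually.of_forall fun x => abs_nonneg (ψ x)) h1
  refine h2.trans (le_of_eq ?_)
  rw [integral_smul_measure]
  simp

/-! ### local integrability -/

theorem fo_locL2_integrableOn (hfin : FiniteOnBoundedSets m) {f : X → ℝ} (hf : LocallyL2 m f)
    (o : X) (R : ℝ) : IntegrableOn f (Metric.closedBall o R) m := by
  have h1 : MemLp f 2 (m.restrict (Metric.ball o (|R| + 1))) := hf o (|R| + 1) (by positivity)
  have : IsFiniteMeasure (m.restrict (Metric.ball o (|R| + 1))) :=
    ⟨by rw [Measure.restrict_apply_univ]; exact hfin _ Metric.isBounded_ball⟩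
  have h2 : IntegrableOn f (Metric.ball o (|R| + 1)) m := h1.integrable one_le_two
  exact h2.mono_set (Metric.closedBall_subset_ball (by linarith [le_abs_self R]))

theorem fo_locL2_sq_integrableOn {f : X → ℝ} (hf : LocallyL2 m f) (o : X) (R : ℝ) :
    IntegrableOn (fun x => f x ^ 2) (Metric.closedBall o R) m := by
  have h1 : MemLp f 2 (m.restrict (Metric.ball o (|R| + 1))) := hf o (|R| + 1) (by positivity)
  have h2 : IntegrableOn (fun x => f x ^ 2) (Metric.ball o (|R| + 1)) m := h1.integrable_sq
  exact h2.mono_set (Metric.closedBall_subset_ball (by linarith [le_abs_self R]))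

/-! ### the weak gradient of a `LocalSobolev` function -/

theorem fo_wg_min {f : X → ℝ} (hf : LocalSobolev m f) :
    IsMinimalLocalWeakUpperGradient m f (weakGradient m f) := by
  unfold weakGradient
  rw [dif_pos hf.2]
  exact Classical.choose_spec hf.2

theorem fo_wg_wug {f : X → ℝ} (hf : LocalSobolev m f) :
    IsLocalWeakUpperGradient m f (weakGradient m f) := (fo_wg_min hf).1

theorem fo_wg_locL2 {f : X → ℝ} (hf : LocalSobolev m f) : LocallyL2 m (weakGradient m f) :=
  (fo_wg_wug hf).1

theorem fo_wg_nonneg {f : X → ℝ} (hf : LocalSobolev m f) : ∀ᵐ x ∂m, 0 ≤ weakGradient m f x :=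
  (fo_wg_wug hf).2.1

theorem fo_wg_sq_integrableOn {f : X → ℝ} (hf : LocalSobolev m f) (o : X) (R : ℝ) :
    IntegrableOn (fun x => weakGradient m f x ^ 2) (Metric.closedBall o R) m :=
  fo_locL2_sq_integrableOn (fo_wg_locL2 hf) o R

theorem fo_gamma_integrableOn (hS : Std m K N) {f g : X → ℝ} (hf : LocalSobolev m f)
    (hg : LocalSobolev m g) (o : X) (R : ℝ) :
    IntegrableOn (gamma m f g) (Metric.closedBall o R) m := by
  have h1 := fo_wg_sq_integrableOn (fo_need_add hS hf hg) o R
  have h2 := fo_wg_sq_integrableOn (fo_need_sub hS hf hg) o R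
  exact (h1.sub h2).div_const 4

/-! ### integrability w.r.t. bounded densities -/

theorem fo_integrable (hfin : FiniteOnBoundedSets m) (h : BddDens m μ M o R) {f : X → ℝ}
    (hf : LocalSobolev m f) : Integrable f μ :=
  fo_bdd_integrable h (fo_locL2_integrableOn hfin hf.1 o R)

theorem fo_integrable_wg_sq (h : BddDens m μ M o R) {f : X → ℝ} (hf : LocalSobolev m f) :
    Integrable (fun x => weakGradient m f x ^ 2) μ :=
  fo_bdd_integrable h (fo_wg_sq_integrableOn hf o R)

theorem fo_integrable_gamma (hS : Std m K N) (h : BddDens m μ M o R) {f g : X → ℝ}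
    (hf : LocalSobolev m f) (hg : LocalSobolev m g) : Integrable (gamma m f g) μ :=
  fo_bdd_integrable h (fo_gamma_integrableOn hS hf hg o R)

end Claimed.Agent.R210.FO.Basic
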