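/-
Row 210 (S0432), layer FO, architect helper920.   ELEMENTARY FACTS ON `W2sq` AND KANTOROVICH PAIRS
(couplings, weak duality; no gluing, no existence of optimal plans).
-/
import Claimed.Agent.R210.FO.Basic

set_option autoImplicit false
set_option linter.unusedSectionVars false

open Claims.C0366 Claims.C0366.WeakHessian
open Set Filter MeasureTheory
open scoped ENNReal NNReal Topology

namespace Claimed.Agent.R210.FO.W2

open Claimed.Agent.R210.Defs Claimed.Agent.R210.FO.Defs Claimed.Agent.R210.FO.Basic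

variable {X : Type*} [MetricSpace X] [MeasurableSpace X] [BorelSpace X]
  [CompleteSpace X] [TopologicalSpace.SeparableSpace X] [ProperSpace X]
variable {m μ ν : Measure X} {R : ℝ} {M₀ M₁ : ℝ≥0} {o : X} {q : Measure (X × X)}

/- HINTS.  `X` is a separable metric space: start proofs that need measurability of `edist`/`dist` on `X × X` with
`haveI : SecondCountableTopology X := UniformSpace.secondCountable_of_separable X`.
`W2sq μ ν = ⨅ q, ⨅ (_ : IsCoupling q μ ν), QuadraticTransportCost q` (`iInf₂_le`, `le_iInf₂`). -/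

theorem fo_W2sq_le_cost (hq : IsCoupling q μ ν) : W2sq μ ν ≤ QuadraticTransportCost q := by
  exact iInf₂_le q hq

theorem fo_W2sq_eq_cost (hq : IsOptimalCoupling q μ ν) : W2sq μ ν = QuadraticTransportCost q := by
  exact le_antisymm (fo_W2sq_le_cost hq.1) (le_iInf₂ fun q' hq' => hq.2 q' hq')

/-- the swapped coupling. -/
theorem fo_coupling_swap (hq : IsCoupling q μ ν) : IsCoupling (q.map Prod.swap) ν μ := by
  refine ⟨?_, ?_⟩
  · rw [Measure.map_map measurable_fst measurable_swap]
    exact hq.2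
  · rw [Measure.map_map measurable_snd measurable_swap]
    exact hq.1

theorem fo_cost_swap (q : Measure (X × X)) :
    QuadraticTransportCost (q.map Prod.swap) = QuadraticTransportCost q := by
  have : SecondCountableTopology X := UniformSpace.secondCountable_of_separable X
  unfold QuadraticTransportCost
  rw [lintegral_map ((measurable_fst.edist measurable_snd).pow_const 2) measurable_swap]
  refine lintegral_congr fun p => ?_
  simp only [Prod.fst_swap, Prod.snd_swap]
  rw [edist_comm]

theorem fo_optimal_swap (hq : IsOptimalCoupling q μ ν) : IsOptimalCoupling (q.map Prod.swap) ν μ := by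
  refine ⟨fo_coupling_swap hq.1, fun q' hq' => ?_⟩
  rw [fo_cost_swap, ← fo_cost_swap q']
  exact hq.2 _ (fo_coupling_swap hq')

theorem fo_W2sq_comm (μ ν : Measure X) : W2sq μ ν = W2sq ν μ := by
  refine le_antisymm ?_ ?_
  · exact le_iInf₂ fun q hq => (fo_W2sq_le_cost (fo_coupling_swap hq)).trans_eq (fo_cost_swap q)
  · exact le_iInf₂ fun q hq => (fo_W2sq_le_cost (fo_coupling_swap hq)).trans_eq (fo_cost_swap q)

theorem fo_W2sqR_comm (μ ν : Measure X) : W2sqR μ ν = W2sqR ν μ := by
  rw [W2sqR, W2sqR, fo_W2sq_comm]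

/-- product coupling `μ.prod ν`: `W2sq ≤ (2R)²` (a.e. both coordinates are in `closedBall o R`:
`fo_bdd_ae_mem`, `Measure.ae_prod...`/`Measure.prod` null sets; `lintegral_mono_ae`, `lintegral_const`). -/
theorem fo_W2sq_le (h0 : BddDens m μ M₀ o R) (h1 : BddDens m ν M₁ o R) :
    W2sq μ ν ≤ ENNReal.ofReal ((2 * R) ^ 2) := by
  have hp0 := h0.prob
  have hp1 := h1.prob
  have hR : 0 ≤ R := fo_bdd_radius_nonneg h0
  have hc : IsCoupling (μ.prod ν) μ ν := by
    refine ⟨?_, ?_⟩
    · rw [Measure.map_fst_prod, measure_univ, one_smul]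
    · rw [Measure.map_snd_prod, measure_univ, one_smul]
  refine (fo_W2sq_le_cost hc).trans ?_
  have e1 : ∀ᵐ p ∂(μ.prod ν), p.1 ∈ Metric.closedBall o R :=
    (Measure.quasiMeasurePreserving_fst (μ := μ) (ν := ν)).ae (fo_bdd_ae_mem h0)
  have e2 : ∀ᵐ p ∂(μ.prod ν), p.2 ∈ Metric.closedBall o R :=
    (Measure.quasiMeasurePreserving_snd (μ := μ) (ν := ν)).ae (fo_bdd_ae_mem h1)
  have h3 : QuadraticTransportCost (μ.prod ν) ≤ ∫⁻ _ : X × X, ENNReal.ofReal ((2 * R) ^ 2) ∂(μ.prod ν) := by
    refine lintegral_mono_ae ?_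
    filter_upwards [e1, e2] with p hp1 hp2
    rw [edist_dist, ← ENNReal.ofReal_pow dist_nonneg]
    refine ENNReal.ofReal_le_ofReal (pow_le_pow_left₀ dist_nonneg ?_ 2)
    have h4 := dist_triangle_right p.1 p.2 o
    rw [Metric.mem_closedBall] at hp1 hp2
    linarith
  refine h3.trans (le_of_eq ?_)
  rw [lintegral_const, measure_univ, mul_one]

theorem fo_W2sq_lt_top (h0 : BddDens m μ M₀ o R) (h1 : BddDens m ν M₁ o R) : W2sq μ ν < ∞ :=
  (fo_W2sq_le h0 h1).trans_lt ENNReal.ofReal_lt_top

theorem fo_W2sqR_nonneg (μ ν : Measure X) : 0 ≤ W2sqR μ ν := ENNReal.toReal_nonneg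

/-- translation of an `ℝ≥0∞` bound into a real one. -/
theorem fo_W2sqR_le_of_le {μ' ν' : Measure X} {c : ℝ} (hc : 0 ≤ c) (hfin : W2sq μ' ν' < ∞)
    (h : W2sq μ ν ≤ ENNReal.ofReal c * W2sq μ' ν') : W2sqR μ ν ≤ c * W2sqR μ' ν' := by
  have h1 : ENNReal.ofReal c * W2sq μ' ν' ≠ ∞ := ENNReal.mul_ne_top ENNReal.ofReal_ne_top hfin.ne
  have h2 := ENNReal.toReal_mono h1 h
  rw [ENNReal.toReal_mul, ENNReal.toReal_ofReal hc] at h2
  exact h2

/-- a coupling of probability measures is a probability measure. -/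
theorem fo_coupling_prob (hq : IsCoupling q μ ν) [IsProbabilityMeasure μ] : IsProbabilityMeasure q := by
  refine ⟨?_⟩
  have h1 : (Measure.map Prod.fst q) univ = q univ := by
    rw [Measure.map_apply measurable_fst MeasurableSet.univ, preimage_univ]
  rw [← h1, hq.1, measure_univ]

/-- integrals of functions of one variable against a coupling. -/
theorem fo_coupling_integral_fst (hq : IsCoupling q μ ν) {f : X → ℝ} (hf : AEStronglyMeasurable f μ) :
    ∫ p, f p.1 ∂q = ∫ x, f x ∂μ := by
  have h1 : AEStronglyMeasurable f (Measure.map Prod.fst q) := by rw [hq.1]; exact hf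
  rw [← hq.1, integral_map measurable_fst.aemeasurable h1]

theorem fo_coupling_integral_snd (hq : IsCoupling q μ ν) {f : X → ℝ} (hf : AEStronglyMeasurable f ν) :
    ∫ p, f p.2 ∂q = ∫ x, f x ∂ν := by
  have h1 : AEStronglyMeasurable f (Measure.map Prod.snd q) := by rw [hq.2]; exact hf
  rw [← hq.2, integral_map measurable_snd.aemeasurable h1]

theorem fo_subInter_of_isInter {μ₀ μ₁ : Measure X} {s : ℝ} (h : IsInter μ₀ μ₁ ν s) :
    fo_SubInter μ₀ μ₁ ν s := ⟨h.1.le, h.2.le⟩

end Claimed.Agent.R210.FO.W2
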