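/-
Row 210 (S0432), layer FO, architect helper920.   MARGINALS `fo_mu π t` OF A GEODESIC PLAN.
-/
import Claimed.Agent.R210.FO.W2

set_option autoImplicit false
set_option linter.unusedSectionVars false

open Claims.C0366 Claims.C0366.WeakHessian
open Set Filter MeasureTheory
open scoped ENNReal NNReal Topology

namespace Claimed.Agent.R210.FO.Plan

open Claimed.Agent.R210.Defs Claimed.Agent.R210.FO.Defs Claimed.Agent.R210.FO.Basic
  Claimed.Agent.R210.FO.W2
open Claimed.Agent.R210.CU.Defs Claimed.Agent.R210.CU.IfcBasic Claimed.Agent.R210.CU.Ifc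

variable {X : Type*} [MetricSpace X] [MeasurableSpace X] [BorelSpace X]
  [CompleteSpace X] [TopologicalSpace.SeparableSpace X] [ProperSpace X]
variable {m μ₀ μ₁ : Measure X} {π : Measure (Curve X)} {R R' : ℝ} {C M₀ M₁ : ℝ≥0} {o : X}

theorem fo_mu_eq_map (π : Measure (Curve X)) (t : ℝ) :
    fo_mu π t = Measure.map (fun γ : Curve X => evalReal γ t) π := rfl

theorem fo_mu_coe (π : Measure (Curve X)) (t : Time) : fo_mu π (t : ℝ) = interpolation π t := by
  rw [fo_mu, cu_clampTime_coe]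

/- HINTS: `h.opt.1 : IsCoupling (endpointCoupling π) μ₀ μ₁`, `endpointCoupling π = map (fun γ => (γ timeZero, γ timeOne)) π`,
`Measure.map_map`, `cu_measurable_eval`, `cu_measurable_evalReal_time`, `cu_measurable_endpoints`, `cu_clampTime_of_nonpos`,
`cu_clampTime_of_one_le`, `cu_geodesic_dist_evalReal`, `cu_geodesic_dist_zero`. -/

theorem fo_mu_zero (h : GeoPlan m μ₀ μ₁ π C) : fo_mu π 0 = μ₀ := by
  have h1 := h.opt.1.1
  rw [endpointCoupling, Measure.map_map measurable_fst cu_measurable_endpoints] at h1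
  rw [fo_mu, cu_clampTime_of_nonpos le_rfl, interpolation]
  exact h1

theorem fo_mu_one (h : GeoPlan m μ₀ μ₁ π C) : fo_mu π 1 = μ₁ := by
  have h1 := h.opt.1.2
  rw [endpointCoupling, Measure.map_map measurable_snd cu_measurable_endpoints] at h1
  rw [fo_mu, cu_clampTime_of_one_le le_rfl, interpolation]
  exact h1

/-- integrals against the marginals. -/
theorem fo_integral_mu (π : Measure (Curve X)) (t : ℝ) {f : X → ℝ}
    (hf : AEStronglyMeasurable f (fo_mu π t)) :
    ∫ x, f x ∂(fo_mu π t) = ∫ γ, f (evalReal γ t) ∂π := by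
  rw [fo_mu_eq_map] at hf ⊢
  exact integral_map (cu_measurable_evalReal_time t).aemeasurable hf

/-- a geodesic with end points in `closedBall o R` stays in `closedBall o (3R)`:
`γ timeZero ∈ closedBall o R` for `π`-a.e. `γ` because `map (· timeZero) π = μ₀` (`ae_of_ae_map`/`ae_map_iff`, `h0.conc`), same at `timeOne`;
`d(γ_t,o) ≤ d(γ_t,γ_0) + d(γ_0,o) ≤ t d(γ_0,γ_1) + R ≤ 2R + R`. -/
theorem fo_tracks (h : GeoPlan m μ₀ μ₁ π C) (h0 : BddDens m μ₀ M₀ o R) (h1 : BddDens m μ₁ M₁ o R) :
    ∀ᵐ γ ∂π, ∀ t : Time, dist (γ t) o ≤ 3 * R := by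
  have e0 : Measure.map (fun γ : Curve X => γ timeZero) π = μ₀ := by
    have := fo_mu_zero h
    rwa [fo_mu, cu_clampTime_of_nonpos le_rfl, interpolation] at this
  have e1 : Measure.map (fun γ : Curve X => γ timeOne) π = μ₁ := by
    have := fo_mu_one h
    rwa [fo_mu, cu_clampTime_of_one_le le_rfl, interpolation] at this
  have a0 : ∀ᵐ γ ∂π, γ timeZero ∈ Metric.closedBall o R := by
    have := fo_bdd_ae_mem h0
    rw [← e0] at this
    exact ae_of_ae_map (cu_measurable_eval timeZero).aemeasurable this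
  have a1 : ∀ᵐ γ ∂π, γ timeOne ∈ Metric.closedBall o R := by
    have := fo_bdd_ae_mem h1
    rw [← e1] at this
    exact ae_of_ae_map (cu_measurable_eval timeOne).aemeasurable this
  filter_upwards [h.geo, a0, a1] with γ hg h0' h1' t
  rw [Metric.mem_closedBall] at h0' h1'
  have hd : dist (γ timeZero) (γ timeOne) ≤ 2 * R := by
    calc dist (γ timeZero) (γ timeOne) ≤ dist (γ timeZero) o + dist o (γ timeOne) := dist_triangle _ _ _
      _ ≤ R + R := add_le_add h0' (by rwa [dist_comm])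
      _ = 2 * R := by ring
  have h2 := cu_geodesic_dist_zero hg t
  have ht0 : (0:ℝ) ≤ (t:ℝ) := t.2.1
  have ht1 : (t:ℝ) ≤ 1 := t.2.2
  have h3 : dist (γ timeZero) (γ t) ≤ 2 * R := by
    rw [h2]
    calc (t:ℝ) * dist (γ timeZero) (γ timeOne) ≤ 1 * dist (γ timeZero) (γ timeOne) :=
          mul_le_mul_of_nonneg_right ht1 dist_nonneg
      _ ≤ 2 * R := by rw [one_mul]; exact hd
  calc dist (γ t) o ≤ dist (γ t) (γ timeZero) + dist (γ timeZero) o := dist_triangle _ _ _
    _ ≤ 2 * R + R := add_le_add (by rwa [dist_comm]) h0'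
    _ = 3 * R := by ring

theorem fo_mu_bdd_of_tracks (h : GeoPlan m μ₀ μ₁ π C)
    (htr : ∀ᵐ γ ∂π, ∀ t : Time, dist (γ t) o ≤ R') (t : ℝ) : BddDens m (fo_mu π t) C o R' := by
  have hp := h.prob
  refine ⟨?_, h.comp (clampTime t), ?_⟩
  · rw [fo_mu, interpolation]
    exact Measure.isProbabilityMeasure_map (cu_measurable_eval _).aemeasurable
  · rw [fo_mu, interpolation,
      Measure.map_apply (cu_measurable_eval _) Metric.isClosed_closedBall.measurableSet.compl]
    rw [ae_iff] at htr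
    refine measure_mono_null ?_ htr
    intro γ hγ hall
    apply hγ
    exact Metric.mem_closedBall.2 (hall _)

theorem fo_mu_bdd (h : GeoPlan m μ₀ μ₁ π C) (h0 : BddDens m μ₀ M₀ o R) (h1 : BddDens m μ₁ M₁ o R)
    (t : ℝ) : BddDens m (fo_mu π t) C o (3 * R) :=
  fo_mu_bdd_of_tracks h (fo_tracks h h0 h1) t

/-- the coupling `(e_u, e_v)_# π = map (fun γ => (evalReal γ u, evalReal γ v)) π` has cost `(v-u)² W₂²(μ₀,μ₁)`:
`edist (γ_u) (γ_v)² = ofReal ((v-u)²) * edist (γ_0) (γ_1)²` for geodesics (`cu_geodesic_dist_evalReal`, `edist_dist`),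
`lintegral_map`, `lintegral_const_mul`, `fo_W2sq_eq_cost h.opt`, `fo_W2sq_le_cost`. -/
theorem fo_mu_W2_le (h : GeoPlan m μ₀ μ₁ π C) {u v : ℝ} (hu : u ∈ Icc (0 : ℝ) 1)
    (hv : v ∈ Icc (0 : ℝ) 1) :
    W2sq (fo_mu π u) (fo_mu π v) ≤ ENNReal.ofReal ((v - u) ^ 2) * W2sq μ₀ μ₁ := by
  have : SecondCountableTopology X := UniformSpace.secondCountable_of_separable X
  have hmeas : Measurable (fun γ : Curve X => (evalReal γ u, evalReal γ v)) :=
    (cu_measurable_evalReal_time u).prodMk (cu_measurable_evalReal_time v)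
  have hc : IsCoupling (Measure.map (fun γ : Curve X => (evalReal γ u, evalReal γ v)) π)
      (fo_mu π u) (fo_mu π v) := by
    constructor
    · rw [Measure.map_map measurable_fst hmeas]; rfl
    · rw [Measure.map_map measurable_snd hmeas]; rfl
  refine (fo_W2sq_le_cost hc).trans ?_
  rw [fo_W2sq_eq_cost h.opt, QuadraticTransportCost, QuadraticTransportCost, endpointCoupling]
  have hm2 : Measurable (fun p : X × X => (edist p.1 p.2) ^ 2) :=
    (measurable_edist).pow_const 2
  rw [lintegral_map hm2 hmeas, lintegral_map hm2 cu_measurable_endpoints]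
  have hm3 : Measurable (fun a : Curve X => edist (a timeZero, a timeOne).1 (a timeZero, a timeOne).2 ^ 2) :=
    hm2.comp cu_measurable_endpoints
  rw [← lintegral_const_mul _ hm3]
  refine le_of_eq (lintegral_congr_ae ?_)
  filter_upwards [h.geo] with γ hg
  have h1 := cu_geodesic_dist_evalReal hg hu hv
  rw [edist_dist, edist_dist, h1, ENNReal.ofReal_mul (abs_nonneg _), mul_pow]
  congr 1
  rw [← ENNReal.ofReal_pow (abs_nonneg _), sq_abs]
  congr 1
  ring

end Claimed.Agent.R210.FO.Plan
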