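/-
Row 210 (S0432), layer FO, architect helper920.   DENSITY OF LIPSCHITZ FUNCTIONS IN `L¹(closedBall, m)`.
-/
import Claimed.Agent.R210.FO.Basic

set_option autoImplicit false
set_option linter.unusedSectionVars false

open Claims.C0366 Claims.C0366.WeakHessian
open Set Filter MeasureTheory
open scoped ENNReal NNReal Topology

namespace Claimed.Agent.R210.FO.Dense

open Claimed.Agent.R210.Defs Claimed.Agent.R210.FO.Defs Claimed.Agent.R210.FO.Basic

variable {X : Type*} [MetricSpace X] [MeasurableSpace X] [BorelSpace X]
  [CompleteSpace X] [TopologicalSpace.SeparableSpace X] [ProperSpace X]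
variable {m : Measure X} {R : ℝ} {o : X}

/-- inf-convolution of a function bounded below is Lipschitz. -/
theorem fo_infconv_lipschitz {Y : Type*} [PseudoMetricSpace Y] (φ : Y → ℝ) (B : ℝ)
    (hB : ∀ y, -B ≤ φ y) (k : ℝ≥0) :
    LipschitzWith k (fun x : Y => ⨅ y : Y, (φ y + k * dist x y)) := by
  have bdd : ∀ x : Y, BddBelow (range fun y : Y => φ y + k * dist x y) := by
    intro x
    refine ⟨-B, ?_⟩
    rintro _ ⟨y, rfl⟩
    have : 0 ≤ (k : ℝ) * dist x y := by positivity
    have := hB y
    simp only
    linarith
  refine LipschitzWith.of_le_add_mul k fun x x' => ?_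
  by_cases hY : Nonempty Y
  · rw [← sub_le_iff_le_add]
    refine le_ciInf fun z => ?_
    rw [sub_le_iff_le_add]
    calc (⨅ y : Y, (φ y + k * dist x y)) ≤ φ z + k * dist x z := ciInf_le (bdd x) z
      _ ≤ φ z + k * dist x' z + k * dist x x' := by
          have h1 : dist x z ≤ dist x x' + dist x' z := dist_triangle _ _ _
          have h2 : (k : ℝ) * dist x z ≤ k * (dist x x' + dist x' z) :=
            mul_le_mul_of_nonneg_left h1 k.coe_nonneg
          linarith
  · exact absurd ⟨x⟩ hY

/-- uniform approximation of a bounded continuous function on a closed ball of a proper space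
by a Lipschitz function. -/
theorem fo_lip_approx_on_ball (φ : BoundedContinuousFunction X ℝ) (o : X) (R : ℝ) {c : ℝ}
    (hc : 0 < c) :
    ∃ (L : ℝ≥0) (g : X → ℝ), LipschitzWith L g ∧ ∀ x ∈ Metric.closedBall o R, |φ x - g x| ≤ c := by
  set B : ℝ := ‖φ‖ with hBdef
  have hB0 : 0 ≤ B := norm_nonneg _
  have hBabs : ∀ y, |φ y| ≤ B := fun y => by
    have := φ.norm_coe_le_norm y
    rwa [Real.norm_eq_abs] at this
  have hcomp : IsCompact (Metric.closedBall o (R + 1)) := isCompact_closedBall o (R + 1)
  have huc : UniformContinuousOn φ (Metric.closedBall o (R + 1)) :=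
    hcomp.uniformContinuousOn_of_continuous φ.continuous.continuousOn
  obtain ⟨δ, hδ, hδc⟩ := Metric.uniformContinuousOn_iff.1 huc c hc
  set δ' : ℝ := min δ 1 with hδ'
  have hδ'pos : 0 < δ' := lt_min hδ one_pos
  set k : ℝ≥0 := Real.toNNReal (2 * B / δ') with hk
  have hkval : (k : ℝ) = 2 * B / δ' := Real.coe_toNNReal _ (by positivity)
  refine ⟨k, fun x => ⨅ y : X, (φ y + k * dist x y),
    fo_infconv_lipschitz φ B (fun y => (abs_le.1 (hBabs y)).1) k, ?_⟩
  intro x hx
  have bdd : BddBelow (range fun y : X => φ y + k * dist x y) := by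
    refine ⟨-B, ?_⟩
    rintro _ ⟨y, rfl⟩
    have : 0 ≤ (k : ℝ) * dist x y := by positivity
    have := (abs_le.1 (hBabs y)).1
    simp only
    linarith
  have hle : (⨅ y : X, (φ y + k * dist x y)) ≤ φ x := by
    have := ciInf_le bdd x
    simpa using this
  have : Nonempty X := ⟨o⟩
  have hge : φ x - c ≤ ⨅ y : X, (φ y + k * dist x y) := by
    refine le_ciInf fun y => ?_
    by_cases hxy : dist x y < δ'
    · have hx' : x ∈ Metric.closedBall o (R + 1) := by
        rw [Metric.mem_closedBall] at hx ⊢
        linarith
      have hy' : y ∈ Metric.closedBall o (R + 1) := by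
        rw [Metric.mem_closedBall] at hx ⊢
        have h1 : dist y o ≤ dist y x + dist x o := dist_triangle _ _ _
        have h2 : dist x y < 1 := lt_of_lt_of_le hxy (min_le_right _ _)
        rw [dist_comm y x] at h1
        linarith
      have h3 := hδc x hx' y hy' (lt_of_lt_of_le hxy (min_le_left _ _))
      rw [Real.dist_eq] at h3
      have h4 := (abs_lt.1 h3).2
      have : 0 ≤ (k : ℝ) * dist x y := by positivity
      linarith
    · have hxy' : δ' ≤ dist x y := not_lt.1 hxy
      have h1 : 2 * B ≤ (k : ℝ) * dist x y := by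
        rw [hkval]
        calc 2 * B = 2 * B / δ' * δ' := by field_simp
          _ ≤ 2 * B / δ' * dist x y := mul_le_mul_of_nonneg_left hxy' (by positivity)
      have h2 := (abs_le.1 (hBabs y)).1
      have h3 := (abs_le.1 (hBabs x)).2
      linarith
  rw [abs_le]
  constructor <;> linarith

/-- Lipschitz functions are dense in `L¹(closedBall, m)`.
Suggested proof: `μ' := m.restrict (closedBall o R)` is a finite Borel measure on a metric space (`hfin`), hence (weakly) regular.
Step 1: `Integrable.exists_boundedContinuous_integral_sub_le` (or `MemLp.exists_boundedContinuous_eLpNorm_sub_le`, or the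
compactly supported version) gives a bounded continuous `φ` with `∫|ψ-φ| dμ' ≤ η/2`.
Step 2: a bounded continuous `φ` is the pointwise increasing limit of the `k`-Lipschitz functions
`φ_k x = ⨅ y, φ y + k * dist x y` (inf-convolution), `inf φ ≤ φ_k ≤ φ`; dominated convergence on the finite measure `μ'`.
(Alternative for step 2: on the compact ball `φ` is uniformly continuous; or Stone-Weierstrass; or approximate simple functions:
indicators of closed sets by `x ↦ max 0 (1 - k * infDist x F)`.)  Any other route is welcome. -/
theorem fo_lip_dense (hfin : FiniteOnBoundedSets m) {ψ : X → ℝ}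
    (hψ : IntegrableOn ψ (Metric.closedBall o R) m) {η : ℝ} (hη : 0 < η) :
    ∃ (L : ℝ≥0) (ψ' : X → ℝ), LipschitzWith L ψ' ∧
      ∫ x in Metric.closedBall o R, |ψ x - ψ' x| ∂m ≤ η := by
  have : IsFiniteMeasure (m.restrict (Metric.closedBall o R)) :=
    ⟨by rw [Measure.restrict_apply_univ]; exact hfin _ Metric.isBounded_closedBall⟩
  obtain ⟨φ, hφ, hφint⟩ :=
    Integrable.exists_boundedContinuous_integral_sub_le (μ := m.restrict (Metric.closedBall o R))
      hψ (half_pos hη)
  set T : ℝ := ((m.restrict (Metric.closedBall o R)) univ).toReal with hT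
  have hT0 : 0 ≤ T := ENNReal.toReal_nonneg
  have hc : 0 < η / (2 * (T + 1)) := by positivity
  obtain ⟨L, g, hg, hgc⟩ := fo_lip_approx_on_ball φ o R hc
  refine ⟨L, g, hg, ?_⟩
  have hgint : Integrable g (m.restrict (Metric.closedBall o R)) := by
    have : IsFiniteMeasureOnCompacts m := ⟨fun K hK => hfin K hK.isBounded⟩
    have hgcont : ContinuousOn g (Metric.closedBall o R) := hg.continuous.continuousOn
    exact (hgcont.integrableOn_compact' (isCompact_closedBall o R)
      Metric.isClosed_closedBall.measurableSet)
  have h1 : Integrable (fun x => |ψ x - φ x|) (m.restrict (Metric.closedBall o R)) :=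
    (hψ.sub hφint).abs
  have h2 : Integrable (fun x => |φ x - g x|) (m.restrict (Metric.closedBall o R)) :=
    (hφint.sub hgint).abs
  have h3 : ∫ x in Metric.closedBall o R, |φ x - g x| ∂m ≤ η / 2 := by
    calc ∫ x in Metric.closedBall o R, |φ x - g x| ∂m
        ≤ ∫ x in Metric.closedBall o R, η / (2 * (T + 1)) ∂m := by
          refine setIntegral_mono_on h2 (integrable_const _)
            Metric.isClosed_closedBall.measurableSet (fun x hx => hgc x hx)
      _ = T * (η / (2 * (T + 1))) := by
          rw [integral_const, smul_eq_mul, hT]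
          rfl
      _ ≤ η / 2 := by
          rw [mul_div_assoc', div_le_div_iff₀ (by positivity) (by positivity)]
          nlinarith
  calc ∫ x in Metric.closedBall o R, |ψ x - g x| ∂m
      ≤ ∫ x in Metric.closedBall o R, (|ψ x - φ x| + |φ x - g x|) ∂m := by
        refine integral_mono ((hψ.sub hgint).abs) (h1.add h2) (fun x => ?_)
        have : ψ x - g x = (ψ x - φ x) + (φ x - g x) := by ring
        simp only
        rw [this]
        exact abs_add_le _ _
    _ = ∫ x in Metric.closedBall o R, |ψ x - φ x| ∂m + ∫ x in Metric.closedBall o R, |φ x - g x| ∂m :=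
        integral_add h1 h2
    _ ≤ η / 2 + η / 2 := by
        refine add_le_add ?_ h3
        simpa [Real.norm_eq_abs] using hφ
    _ = η := by ring

end Claimed.Agent.R210.FO.Dense
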