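/-
Row 210 (S0432), layer FO, architect helper920.   WEAK DUALITY, KANTOROVICH PAIRS, LIPSCHITZ FUNCTIONS AND `W₂`.
-/
import Claimed.Agent.R210.FO.W2

set_option autoImplicit false
set_option linter.unusedSectionVars false

open Claims.C0366 Claims.C0366.WeakHessian
open Set Filter MeasureTheory
open scoped ENNReal NNReal Topology

namespace Claimed.Agent.R210.FO.Dual

open Claimed.Agent.R210.Defs Claimed.Agent.R210.FO.Defs Claimed.Agent.R210.FO.Basic Claimed.Agent.R210.FO.W2

variable {X : Type*} [MetricSpace X] [MeasurableSpace X] [BorelSpace X]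
  [CompleteSpace X] [TopologicalSpace.SeparableSpace X] [ProperSpace X]
variable {m μ ν : Measure X} {R : ℝ} {M₀ M₁ : ℝ≥0} {o : X} {q : Measure (X × X)}

theorem fo_cost_eq_lintegral (q : Measure (X × X)) :
    QuadraticTransportCost q = ∫⁻ p, ENNReal.ofReal (dist p.1 p.2 ^ 2) ∂q := by
  unfold QuadraticTransportCost
  refine lintegral_congr fun p => ?_
  rw [edist_dist, ENNReal.ofReal_pow dist_nonneg]

theorem fo_dist_sq_integrable (hfin : QuadraticTransportCost q < ∞) :
    Integrable (fun p : X × X => dist p.1 p.2 ^ 2) q := by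
  haveI : SecondCountableTopology X := UniformSpace.secondCountable_of_separable X
  refine ⟨((continuous_fst.dist continuous_snd).pow 2).aestronglyMeasurable, ?_⟩
  rw [hasFiniteIntegral_iff_ofReal (Eventually.of_forall fun p => sq_nonneg _), ← fo_cost_eq_lintegral]
  exact hfin

theorem fo_ofReal_integral_dist_sq (hfin : QuadraticTransportCost q < ∞) :
    ENNReal.ofReal (∫ p, dist p.1 p.2 ^ 2 ∂q) = QuadraticTransportCost q := by
  rw [ofReal_integral_eq_lintegral_ofReal (fo_dist_sq_integrable hfin)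
    (Eventually.of_forall fun p => sq_nonneg _), fo_cost_eq_lintegral]

theorem fo_coupling_integrable_fst (hq : IsCoupling q μ ν) {a : X → ℝ} (ha : Integrable a μ) :
    Integrable (fun p : X × X => a p.1) q := by
  have h1 : Integrable a (Measure.map Prod.fst q) := by rw [hq.1]; exact ha
  exact (integrable_map_measure h1.aestronglyMeasurable measurable_fst.aemeasurable).1 h1

theorem fo_coupling_integrable_snd (hq : IsCoupling q μ ν) {b : X → ℝ} (hb : Integrable b ν) :
    Integrable (fun p : X × X => b p.2) q := by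
  have h1 : Integrable b (Measure.map Prod.snd q) := by rw [hq.2]; exact hb
  exact (integrable_map_measure h1.aestronglyMeasurable measurable_snd.aemeasurable).1 h1

theorem fo_integrable_of_bdd [IsFiniteMeasure μ] {a : X → ℝ} (ha : Continuous a) (hba : BoundedFunction a) :
    Integrable a μ := by
  obtain ⟨B, hB⟩ := hba
  exact Integrable.of_bound ha.aestronglyMeasurable B
    (Eventually.of_forall fun x => by rw [Real.norm_eq_abs]; exact hB x)

/-- `(∫ f)² ≤ ∫ f²` on a probability space. -/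
theorem fo_sq_integral_le {Ω : Type*} [MeasurableSpace Ω] {P : Measure Ω} [IsProbabilityMeasure P] {f : Ω → ℝ}
    (hf : Integrable f P) (hf2 : Integrable (fun x => f x ^ 2) P) :
    (∫ x, f x ∂P) ^ 2 ≤ ∫ x, f x ^ 2 ∂P := by
  set c : ℝ := ∫ x, f x ∂P with hc
  have hnn : 0 ≤ ∫ x, (f x - c) ^ 2 ∂P := integral_nonneg fun _ => sq_nonneg _
  have i2 : Integrable (fun x => (2 * c) * f x) P := hf.const_mul _
  have i3 : Integrable (fun _ : Ω => c ^ 2) P := integrable_const _
  have i12 : Integrable (fun x => f x ^ 2 - (2 * c) * f x) P := hf2.sub i2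
  have e : (fun x => (f x - c) ^ 2) = fun x => f x ^ 2 - (2 * c) * f x + c ^ 2 := by
    funext x
    ring
  rw [e, integral_add i12 i3, integral_sub hf2 i2, integral_const_mul, integral_const, ← hc] at hnn
  simp only [probReal_univ, smul_eq_mul, one_mul] at hnn
  nlinarith

/-- **weak duality** (OT5, easy half).
Proof: for EVERY coupling `q` (a probability measure, `fo_coupling_prob`):
`∫a dμ + ∫b dν = ∫ (a p.1 + b p.2) dq` (`fo_coupling_integral_fst/snd`, bounded continuous functions are integrable)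
`≤ ∫ dist²/2 dq`; so `ENNReal.ofReal (2 (∫a dμ + ∫b dν)) ≤ QuadraticTransportCost q` (trivial if the cost is `∞`; otherwise
`dist²` is `q`-integrable and `ofReal_integral_eq_lintegral_ofReal`, `edist_dist`).  Then `le_iInf₂` and `ENNReal.toReal`. -/
theorem fo_weak_duality [IsProbabilityMeasure μ] [IsProbabilityMeasure ν] (hfin : W2sq μ ν < ∞)
    {a b : X → ℝ} (ha : Continuous a) (hb : Continuous b) (hba : BoundedFunction a)
    (hbb : BoundedFunction b) (hle : ∀ x y, a x + b y ≤ dist x y ^ 2 / 2) :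
    ∫ x, a x ∂μ + ∫ y, b y ∂ν ≤ W2sqR μ ν / 2 := by
  have hia : Integrable a μ := fo_integrable_of_bdd ha hba
  have hib : Integrable b ν := fo_integrable_of_bdd hb hbb
  have key : ENNReal.ofReal (2 * (∫ x, a x ∂μ + ∫ y, b y ∂ν)) ≤ W2sq μ ν := by
    unfold W2sq
    refine le_iInf₂ fun q hq => ?_
    by_cases hc : QuadraticTransportCost q = ∞
    · rw [hc]; exact le_top
    have hc' : QuadraticTransportCost q < ∞ := lt_top_iff_ne_top.2 hc
    have i1 := fo_coupling_integrable_fst hq hia
    have i2 := fo_coupling_integrable_snd hq hib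
    have i3 := fo_dist_sq_integrable hc'
    rw [← fo_ofReal_integral_dist_sq hc']
    refine ENNReal.ofReal_le_ofReal ?_
    rw [← fo_coupling_integral_fst hq hia.aestronglyMeasurable,
      ← fo_coupling_integral_snd hq hib.aestronglyMeasurable, ← integral_add i1 i2]
    have h1 : ∫ p, (a p.1 + b p.2) ∂q ≤ ∫ p, dist p.1 p.2 ^ 2 / 2 ∂q :=
      integral_mono (i1.add i2) (i3.div_const 2) fun p => hle p.1 p.2
    rw [integral_div] at h1
    linarith
  have h2 := (ENNReal.ofReal_le_iff_le_toReal hfin.ne).1 key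
  unfold W2sqR
  linarith

/-- for a Kantorovich pair there is equality (OT5): integrate the a.e. equality against the optimal `q` of `hK.eq`;
`fo_W2sq_eq_cost`; the cost is finite by `hfin`. -/
theorem fo_kpair_eq [IsProbabilityMeasure μ] [IsProbabilityMeasure ν] (hfin : W2sq μ ν < ∞)
    {a b : X → ℝ} (hK : KPair μ ν a b) : ∫ x, a x ∂μ + ∫ y, b y ∂ν = W2sqR μ ν / 2 := by
  obtain ⟨La, hLa⟩ := hK.lip_a
  obtain ⟨Lb, hLb⟩ := hK.lip_b
  have hia : Integrable a μ := fo_integrable_of_bdd hLa.continuous hK.bdd_a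
  have hib : Integrable b ν := fo_integrable_of_bdd hLb.continuous hK.bdd_b
  obtain ⟨q, hopt, hae⟩ := hK.eq
  have hq := hopt.1
  have hcost : W2sq μ ν = QuadraticTransportCost q := fo_W2sq_eq_cost hopt
  have hc' : QuadraticTransportCost q < ∞ := hcost ▸ hfin
  have i1 := fo_coupling_integrable_fst hq hia
  have i2 := fo_coupling_integrable_snd hq hib
  have h1 : ∫ p, (a p.1 + b p.2) ∂q = ∫ p, dist p.1 p.2 ^ 2 / 2 ∂q := integral_congr_ae hae
  rw [integral_add i1 i2, fo_coupling_integral_fst hq hia.aestronglyMeasurable,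
    fo_coupling_integral_snd hq hib.aestronglyMeasurable, integral_div] at h1
  rw [h1]
  unfold W2sqR
  rw [hcost, ← fo_ofReal_integral_dist_sq hc',
    ENNReal.toReal_ofReal (integral_nonneg fun _ => sq_nonneg _)]

theorem fo_kpair_swap {a b : X → ℝ} (hK : KPair μ ν a b) : KPair ν μ b a := by
  obtain ⟨q, hopt, hae⟩ := hK.eq
  refine ⟨hK.lip_b, hK.lip_a, hK.bdd_b, hK.bdd_a, fun x y => ?_, q.map Prod.swap, fo_optimal_swap hopt, ?_⟩
  · have := hK.le y x
    rw [dist_comm]
    linarith
  · have hemb : MeasurableEmbedding (Prod.swap : X × X → X × X) :=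
      (MeasurableEquiv.prodComm (α := X) (β := X)).measurableEmbedding
    rw [hemb.ae_map_iff]
    filter_upwards [hae] with p hp
    simp only [Prod.fst_swap, Prod.snd_swap]
    rw [dist_comm]
    linarith

/-- Lipschitz functions and `W₂`: `|∫ψ dν - ∫ψ dμ| ≤ L W₂(μ,ν)`.
Proof: `ψ` is continuous, hence bounded on the compact ball, hence integrable w.r.t. `μ, ν` (`fo_bdd_integrable`,
`ContinuousOn.integrableOn_compact` needs local finiteness of `m`; simpler: `μ` is a finite measure and `ψ` is a.e. bounded).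
For every coupling `q` with finite cost: `|∫ψ dν - ∫ψ dμ| = |∫ (ψ p.2 - ψ p.1) dq| ≤ L ∫ dist dq ≤ L (∫ dist² dq)^{1/2}`
(Cauchy-Schwarz on a probability space, e.g. `(∫ d)² ≤ ∫ d²` from `∫ (d - c)² ≥ 0` with `c = ∫ d`).  So
`ofReal (|..|²) ≤ L² cost q` for all `q`; take the infimum (`ENNReal.mul_iInf`-free: if `L = 0` trivial, otherwise divide). -/
theorem fo_lip_W2 (h0 : BddDens m μ M₀ o R) (h1 : BddDens m ν M₁ o R) {L : ℝ≥0} {ψ : X → ℝ}
    (hψ : LipschitzWith L ψ) :
    |∫ x, ψ x ∂ν - ∫ x, ψ x ∂μ| ≤ L * Real.sqrt (W2sqR μ ν) := by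
  haveI := h0.prob
  haveI := h1.prob
  have hint : ∀ {μ' : Measure X} {M' : ℝ≥0}, BddDens m μ' M' o R → Integrable ψ μ' := by
    intro μ' M' h
    haveI := h.prob
    refine Integrable.of_bound hψ.continuous.aestronglyMeasurable (|ψ o| + L * R) ?_
    filter_upwards [fo_bdd_ae_mem h] with x hx
    rw [Real.norm_eq_abs]
    have h2 : |ψ x - ψ o| ≤ L * dist x o := by
      rw [← Real.dist_eq]
      exact hψ.dist_le_mul x o
    have h3 : (L : ℝ) * dist x o ≤ L * R := mul_le_mul_of_nonneg_left (Metric.mem_closedBall.1 hx) L.coe_nonneg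
    have h4 : |ψ x| ≤ |ψ x - ψ o| + |ψ o| := by
      have := abs_add_le (ψ x - ψ o) (ψ o)
      rwa [sub_add_cancel] at this
    linarith
  have hiμ : Integrable ψ μ := hint h0
  have hiν : Integrable ψ ν := hint h1
  have hfin : W2sq μ ν < ∞ := fo_W2sq_lt_top h0 h1
  set D : ℝ := |∫ x, ψ x ∂ν - ∫ x, ψ x ∂μ| with hD
  -- the estimate for one coupling
  have hone : ∀ q : Measure (X × X), IsCoupling q μ ν → QuadraticTransportCost q < ∞ →
      D ^ 2 ≤ (L : ℝ) ^ 2 * ∫ p, dist p.1 p.2 ^ 2 ∂q := by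
    intro q hq hc'
    haveI := fo_coupling_prob hq
    have i1 := fo_coupling_integrable_fst hq hiμ
    have i2 := fo_coupling_integrable_snd hq hiν
    have i3 := fo_dist_sq_integrable hc'
    have if1 : Integrable (fun p : X × X => ψ p.2 - ψ p.1) q := i2.sub i1
    have hb : ∀ p : X × X, (ψ p.2 - ψ p.1) ^ 2 ≤ (L : ℝ) ^ 2 * dist p.1 p.2 ^ 2 := by
      intro p
      have h2 : |ψ p.2 - ψ p.1| ≤ L * dist p.1 p.2 := by
        rw [← Real.dist_eq, dist_comm p.1 p.2]
        exact hψ.dist_le_mul p.2 p.1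
      rw [← mul_pow, ← sq_abs (ψ p.2 - ψ p.1)]
      exact pow_le_pow_left₀ (abs_nonneg _) h2 2
    have if2 : Integrable (fun p : X × X => (ψ p.2 - ψ p.1) ^ 2) q := by
      refine Integrable.mono' (i3.const_mul ((L : ℝ) ^ 2)) (if1.aestronglyMeasurable.pow 2) ?_
      refine Eventually.of_forall fun p => ?_
      rw [Real.norm_eq_abs, abs_of_nonneg (sq_nonneg _)]
      exact hb p
    have h3 := fo_sq_integral_le if1 if2
    rw [integral_sub i2 i1, fo_coupling_integral_fst hq hiμ.aestronglyMeasurable,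
      fo_coupling_integral_snd hq hiν.aestronglyMeasurable] at h3
    have h4 : ∫ p, (ψ p.2 - ψ p.1) ^ 2 ∂q ≤ ∫ p, (L : ℝ) ^ 2 * dist p.1 p.2 ^ 2 ∂q :=
      integral_mono if2 (i3.const_mul _) hb
    rw [integral_const_mul] at h4
    rw [hD, sq_abs]
    exact h3.trans h4
  rcases eq_or_ne L 0 with hL | hL
  · -- `ψ` is constant
    have hconst : ∀ x, ψ x = ψ o := by
      intro x
      have h2 := hψ.dist_le_mul x o
      rw [hL] at h2
      simp only [NNReal.coe_zero, zero_mul] at h2
      exact dist_le_zero.1 h2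
    have e1 : ∫ x, ψ x ∂ν = ψ o := by
      rw [integral_congr_ae (Eventually.of_forall hconst), integral_const]
      simp
    have e2 : ∫ x, ψ x ∂μ = ψ o := by
      rw [integral_congr_ae (Eventually.of_forall hconst), integral_const]
      simp
    rw [hD, e1, e2, hL]
    simp
  · have hLpos : 0 < (L : ℝ) := by
      have : 0 < L := pos_iff_ne_zero.2 hL
      exact_mod_cast this
    have key : ENNReal.ofReal (D ^ 2 / (L : ℝ) ^ 2) ≤ W2sq μ ν := by
      unfold W2sq
      refine le_iInf₂ fun q hq => ?_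
      by_cases hc : QuadraticTransportCost q = ∞
      · rw [hc]; exact le_top
      have hc' : QuadraticTransportCost q < ∞ := lt_top_iff_ne_top.2 hc
      rw [← fo_ofReal_integral_dist_sq hc']
      refine ENNReal.ofReal_le_ofReal ?_
      rw [div_le_iff₀ (by positivity), mul_comm]
      exact hone q hq hc'
    have h2 : D ^ 2 / (L : ℝ) ^ 2 ≤ W2sqR μ ν := (ENNReal.ofReal_le_iff_le_toReal hfin.ne).1 key
    rw [div_le_iff₀ (by positivity)] at h2
    have h3 : D ≤ Real.sqrt (W2sqR μ ν * (L : ℝ) ^ 2) := Real.le_sqrt_of_sq_le h2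
    rw [Real.sqrt_mul (fo_W2sqR_nonneg μ ν), Real.sqrt_sq hLpos.le, mul_comm] at h3
    exact h3

end Claimed.Agent.R210.FO.Dual
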