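/-
Row 210 (S0432), layer FO, architect helper920.   FO0: the weak-star lemma.
`ν_j ≤ C m` concentrated on a fixed ball, `W₂(ν_j, μ) → 0`, `ψ` integrable on the ball  ⟹  `∫ψ dν_j → ∫ψ dμ`.
-/
import Claimed.Agent.R210.FO.Dual
import Claimed.Agent.R210.FO.Dense

set_option autoImplicit false
set_option linter.unusedSectionVars false

open Claims.C0366 Claims.C0366.WeakHessian
open Set Filter MeasureTheory
open scoped ENNReal NNReal Topology

namespace Claimed.Agent.R210.FO.Weak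

open Claimed.Agent.R210.Defs Claimed.Agent.R210.FO.Defs Claimed.Agent.R210.FO.Basic
  Claimed.Agent.R210.FO.W2 Claimed.Agent.R210.FO.Dual Claimed.Agent.R210.FO.Dense

variable {X : Type*} [MetricSpace X] [MeasurableSpace X] [BorelSpace X]
  [CompleteSpace X] [TopologicalSpace.SeparableSpace X] [ProperSpace X]
variable {m μ ν : Measure X} {R : ℝ} {C₁ C₂ C : ℝ≥0} {o : X}

/-- a Lipschitz function is integrable on closed balls. -/
theorem fo_lip_integrableOn (hfin : FiniteOnBoundedSets m) {L : ℝ≥0} {ψ' : X → ℝ}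
    (hψ' : LipschitzWith L ψ') (o : X) (R : ℝ) : IntegrableOn ψ' (Metric.closedBall o R) m := by
  have hK : IsCompact (Metric.closedBall o R) := isCompact_closedBall o R
  obtain ⟨B, hB⟩ := hK.exists_bound_of_continuousOn hψ'.continuous.continuousOn
  have hlt : m (Metric.closedBall o R) < ∞ := hfin _ Metric.isBounded_closedBall
  refine Measure.integrableOn_of_bounded (M := B) hlt.ne hψ'.continuous.aestronglyMeasurable ?_
  rw [ae_restrict_iff' Metric.isClosed_closedBall.measurableSet]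
  exact Eventually.of_forall hB

/-- **FO0, quantitative form.**
Proof: `∫ψ dν - ∫ψ dμ = ∫(ψ-ψ') dν - ∫(ψ-ψ') dμ + (∫ψ' dν - ∫ψ' dμ)`; `fo_bdd_integral_abs_le` for the
first two terms, `fo_lip_W2` for the last one. -/
theorem fo_weak_quant (hfin : FiniteOnBoundedSets m) (hμ : BddDens m μ C₁ o R)
    (hν : BddDens m ν C₂ o R) {ψ ψ' : X → ℝ} (hψ : IntegrableOn ψ (Metric.closedBall o R) m)
    {L : ℝ≥0} (hψ' : LipschitzWith L ψ') :
    |∫ x, ψ x ∂ν - ∫ x, ψ x ∂μ|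
      ≤ ((C₁ : ℝ) + C₂) * ∫ x in Metric.closedBall o R, |ψ x - ψ' x| ∂m
        + L * Real.sqrt (W2sqR μ ν) := by
  have hL := fo_lip_integrableOn hfin hψ' o R
  have hd : IntegrableOn (fun x => ψ x - ψ' x) (Metric.closedBall o R) m := hψ.sub hL
  have i1 := fo_bdd_integrable hμ hψ
  have i2 := fo_bdd_integrable hν hψ
  have j1 := fo_bdd_integrable hμ hL
  have j2 := fo_bdd_integrable hν hL
  have k1 := fo_bdd_integral_abs_le hμ hd
  have k2 := fo_bdd_integral_abs_le hν hd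
  have l1 := fo_lip_W2 hμ hν hψ'
  have e1 : ∫ x, (ψ x - ψ' x) ∂μ = ∫ x, ψ x ∂μ - ∫ x, ψ' x ∂μ := integral_sub i1 j1
  have e2 : ∫ x, (ψ x - ψ' x) ∂ν = ∫ x, ψ x ∂ν - ∫ x, ψ' x ∂ν := integral_sub i2 j2
  have a1 : |∫ x, (ψ x - ψ' x) ∂μ| ≤ ∫ x, |ψ x - ψ' x| ∂μ := abs_integral_le_integral_abs
  have a2 : |∫ x, (ψ x - ψ' x) ∂ν| ≤ ∫ x, |ψ x - ψ' x| ∂ν := abs_integral_le_integral_abs
  have hsplit : ∫ x, ψ x ∂ν - ∫ x, ψ x ∂μ =
      ∫ x, (ψ x - ψ' x) ∂ν - ∫ x, (ψ x - ψ' x) ∂μ + (∫ x, ψ' x ∂ν - ∫ x, ψ' x ∂μ) := by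
    rw [e1, e2]; ring
  rw [hsplit]
  have t1 := abs_add_le (∫ x, (ψ x - ψ' x) ∂ν - ∫ x, (ψ x - ψ' x) ∂μ) (∫ x, ψ' x ∂ν - ∫ x, ψ' x ∂μ)
  have t2 := abs_sub (∫ x, (ψ x - ψ' x) ∂ν) (∫ x, (ψ x - ψ' x) ∂μ)
  nlinarith [t1, t2, a1, a2, k1, k2, l1]

/-- **FO0** along an arbitrary filter.  Proof: `Metric.tendsto_nhds`; given `ε`, `fo_lip_dense` with `η = ε / (2 (2C+1))`, then
`fo_weak_quant` and `L * sqrt (W2sqR μ (νs i)) < ε/2` eventually (`hW`, continuity of `sqrt` at `0`). -/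
theorem fo_weak_tendsto (hfin : FiniteOnBoundedSets m) {ι : Type*} {l : Filter ι}
    {νs : ι → Measure X} (hμ : BddDens m μ C o R) (hν : ∀ᶠ i in l, BddDens m (νs i) C o R)
    (hW : Tendsto (fun i => W2sqR μ (νs i)) l (𝓝 0)) {ψ : X → ℝ}
    (hψ : IntegrableOn ψ (Metric.closedBall o R) m) :
    Tendsto (fun i => ∫ x, ψ x ∂(νs i)) l (𝓝 (∫ x, ψ x ∂μ)) := by
  rw [Metric.tendsto_nhds]
  intro ε hε
  have hC : (0:ℝ) ≤ C := C.2
  have hden : (0:ℝ) < 2 * (2 * (C:ℝ) + 1) := by positivity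
  obtain ⟨L, ψ', hL, hη⟩ := fo_lip_dense hfin hψ (η := ε / (2 * (2 * (C:ℝ) + 1))) (div_pos hε hden)
  have hs : Tendsto (fun i => (L:ℝ) * Real.sqrt (W2sqR μ (νs i))) l (𝓝 0) := by
    have h1 : Tendsto (fun i => Real.sqrt (W2sqR μ (νs i))) l (𝓝 (Real.sqrt 0)) :=
      (Real.continuous_sqrt.tendsto 0).comp hW
    rw [Real.sqrt_zero] at h1
    simpa using h1.const_mul (L:ℝ)
  have hs' : ∀ᶠ i in l, (L:ℝ) * Real.sqrt (W2sqR μ (νs i)) < ε / 2 :=
    (tendsto_order.1 hs).2 _ (half_pos hε)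
  filter_upwards [hν, hs'] with i hi hsi
  have hq := fo_weak_quant hfin hμ hi hψ hL
  rw [Real.dist_eq]
  have hb : ((C:ℝ) + C) * ∫ x in Metric.closedBall o R, |ψ x - ψ' x| ∂m ≤ ε / 2 := by
    calc ((C:ℝ) + C) * ∫ x in Metric.closedBall o R, |ψ x - ψ' x| ∂m
        ≤ ((C:ℝ) + C) * (ε / (2 * (2 * (C:ℝ) + 1))) :=
          mul_le_mul_of_nonneg_left hη (by positivity)
      _ ≤ ε / 2 := by
          rw [mul_div_assoc', div_le_div_iff₀ hden (by norm_num)]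
          nlinarith
  linarith

end Claimed.Agent.R210.FO.Weak
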