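/-
Row 210 (S0432), layer FO, architect helper920.   MARGINALS OF A GEODESIC PLAN, PART 2 (uses the triangle inequality and FO0).
-/
import Claimed.Agent.R210.FO.Plan
import Claimed.Agent.R210.FO.Weak

set_option autoImplicit false
set_option linter.unusedSectionVars false

open Claims.C0366 Claims.C0366.WeakHessian
open Set Filter MeasureTheory
open scoped ENNReal NNReal Topology

namespace Claimed.Agent.R210.FO.Plan2

open Claimed.Agent.R210.Defs Claimed.Agent.R210.FO.Defs Claimed.Agent.R210.FO.Basic Claimed.Agent.R210.FO.W2 Claimed.Agent.R210.FO.Weak Claimed.Agent.R210.FO.Plan Claimed.Agent.R210.FO.Need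
open Claimed.Agent.R210.CU.Defs Claimed.Agent.R210.CU.IfcBasic Claimed.Agent.R210.CU.Ifc

variable {X : Type*} [MetricSpace X] [MeasurableSpace X] [BorelSpace X]
  [CompleteSpace X] [TopologicalSpace.SeparableSpace X] [ProperSpace X]
variable {m μ₀ μ₁ : Measure X} {π : Measure (Curve X)} {R R' : ℝ} {C M₀ M₁ : ℝ≥0} {o : X}

/-- the lower bound in `fo_mu_W2_eq`, for `u ≤ v`. -/
theorem fo_mu_W2_ge_aux (h : GeoPlan m μ₀ μ₁ π C) (h0 : BddDens m μ₀ M₀ o R) (h1 : BddDens m μ₁ M₁ o R)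
    {u v : ℝ} (hu : u ∈ Icc (0 : ℝ) 1) (hv : v ∈ Icc (0 : ℝ) 1) (huv : u ≤ v) :
    ENNReal.ofReal ((v - u) ^ 2) * W2sq μ₀ μ₁ ≤ W2sq (fo_mu π u) (fo_mu π v) := by
  have B := fo_mu_bdd h h0 h1
  have hfin : W2sq μ₀ μ₁ < ∞ := fo_W2sq_lt_top h0 h1
  have z0 : (0 : ℝ) ∈ Icc (0 : ℝ) 1 := ⟨le_rfl, zero_le_one⟩
  have z1 : (1 : ℝ) ∈ Icc (0 : ℝ) 1 := ⟨zero_le_one, le_rfl⟩
  set W2 : ℝ := W2sqR μ₀ μ₁ with hW2
  have hW2nn : 0 ≤ W2 := fo_W2sqR_nonneg _ _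
  set W : ℝ := Real.sqrt W2 with hW
  have hWnn : 0 ≤ W := Real.sqrt_nonneg _
  have hWsq : W ^ 2 = W2 := Real.sq_sqrt hW2nn
  have t1 := fo_need_tri (B 0) (B u) (B 1)
  have t2 := fo_need_tri (B u) (B v) (B 1)
  have e01 : W2sqR (fo_mu π 0) (fo_mu π 1) = W2 := by rw [fo_mu_zero h, fo_mu_one h]
  rw [e01] at t1
  have b1 : W2sqR (fo_mu π 0) (fo_mu π u) ≤ (u - 0) ^ 2 * W2 :=
    fo_W2sqR_le_of_le (sq_nonneg _) hfin (fo_mu_W2_le h z0 hu)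
  have b2 : W2sqR (fo_mu π v) (fo_mu π 1) ≤ (1 - v) ^ 2 * W2 :=
    fo_W2sqR_le_of_le (sq_nonneg _) hfin (fo_mu_W2_le h hv z1)
  have s1 : Real.sqrt (W2sqR (fo_mu π 0) (fo_mu π u)) ≤ u * W := by
    calc Real.sqrt (W2sqR (fo_mu π 0) (fo_mu π u)) ≤ Real.sqrt ((u - 0) ^ 2 * W2) := Real.sqrt_le_sqrt b1
      _ = u * W := by
        rw [Real.sqrt_mul (sq_nonneg _), sub_zero, Real.sqrt_sq hu.1]
  have s2 : Real.sqrt (W2sqR (fo_mu π v) (fo_mu π 1)) ≤ (1 - v) * W := by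
    calc Real.sqrt (W2sqR (fo_mu π v) (fo_mu π 1)) ≤ Real.sqrt ((1 - v) ^ 2 * W2) := Real.sqrt_le_sqrt b2
      _ = (1 - v) * W := by
        rw [Real.sqrt_mul (sq_nonneg _), Real.sqrt_sq (by linarith [hv.2])]
  set w : ℝ := Real.sqrt (W2sqR (fo_mu π u) (fo_mu π v)) with hw
  have hwsq : w ^ 2 = W2sqR (fo_mu π u) (fo_mu π v) := Real.sq_sqrt (fo_W2sqR_nonneg _ _)
  have key : (v - u) * W ≤ w := by nlinarith
  have key0 : 0 ≤ (v - u) * W := mul_nonneg (by linarith) hWnn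
  have key2 : (v - u) ^ 2 * W2 ≤ W2sqR (fo_mu π u) (fo_mu π v) := by
    rw [← hwsq, ← hWsq, ← mul_pow]
    exact pow_le_pow_left₀ key0 key 2
  have e1 : W2sq μ₀ μ₁ = ENNReal.ofReal W2 := (ENNReal.ofReal_toReal hfin.ne).symm
  have e2 : W2sq (fo_mu π u) (fo_mu π v) = ENNReal.ofReal (W2sqR (fo_mu π u) (fo_mu π v)) :=
    (ENNReal.ofReal_toReal (fo_W2sq_lt_top (B u) (B v)).ne).symm
  rw [e1, e2, ← ENNReal.ofReal_mul (sq_nonneg _)]
  exact ENNReal.ofReal_le_ofReal key2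

/-- equality.  `≤` is `fo_mu_W2_le`.  `≥`: w.l.o.g. `u ≤ v` (`fo_W2sq_comm`).  All `fo_mu π t` are `BddDens m _ C o (3R)` (`fo_mu_bdd`), all `W2sq` are finite
(`fo_W2sq_lt_top`), so work with `w x y := sqrt (W2sqR ..)`: by `fo_need_tri` twice, `fo_mu_zero`, `fo_mu_one`:
`W ≤ w(μ_0,μ_u) + w(μ_u,μ_v) + w(μ_v,μ_1) ≤ u W + w(μ_u,μ_v) + (1-v) W`, so `w(μ_u,μ_v) ≥ (v-u) W`; square; go back to `ℝ≥0∞`. -/
theorem fo_mu_W2_eq (h : GeoPlan m μ₀ μ₁ π C) (h0 : BddDens m μ₀ M₀ o R) (h1 : BddDens m μ₁ M₁ o R)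
    {u v : ℝ} (hu : u ∈ Icc (0 : ℝ) 1) (hv : v ∈ Icc (0 : ℝ) 1) :
    W2sq (fo_mu π u) (fo_mu π v) = ENNReal.ofReal ((v - u) ^ 2) * W2sq μ₀ μ₁ := by
  refine le_antisymm (fo_mu_W2_le h hu hv) ?_
  rcases le_total u v with huv | huv
  · exact fo_mu_W2_ge_aux h h0 h1 hu hv huv
  · have := fo_mu_W2_ge_aux h h0 h1 hv hu huv
    rw [fo_W2sq_comm (fo_mu π u), show (v - u) ^ 2 = (u - v) ^ 2 by ring]
    exact this

/-- `fo_mu π t` is a sub-intermediate point of `(fo_mu π u, fo_mu π v)` with parameter `(t-u)/(v-u)`,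
for `t` between `u` and `v` (`u ≠ v`, either order). -/
theorem fo_mu_subInter (h : GeoPlan m μ₀ μ₁ π C) (h0 : BddDens m μ₀ M₀ o R)
    (h1 : BddDens m μ₁ M₁ o R) {u v t : ℝ} (hu : u ∈ Icc (0 : ℝ) 1) (hv : v ∈ Icc (0 : ℝ) 1)
    (huv : u ≠ v) (ht : t ∈ uIcc u v) :
    fo_SubInter (fo_mu π u) (fo_mu π v) (fo_mu π t) ((t - u) / (v - u)) := by
  have ht' : t ∈ Icc (0 : ℝ) 1 := Set.uIcc_subset_Icc hu hv ht
  have hvu : v - u ≠ 0 := sub_ne_zero.2 huv.symm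
  constructor
  · rw [fo_mu_W2_eq h h0 h1 hu hv, ← mul_assoc, ← ENNReal.ofReal_mul (sq_nonneg _)]
    have : ((t - u) / (v - u)) ^ 2 * (v - u) ^ 2 = (t - u) ^ 2 := by
      field_simp
    rw [this]
    exact fo_mu_W2_le h hu ht'
  · rw [fo_mu_W2_eq h h0 h1 hu hv, ← mul_assoc, ← ENNReal.ofReal_mul (sq_nonneg _)]
    have : (1 - (t - u) / (v - u)) ^ 2 * (v - u) ^ 2 = (v - t) ^ 2 := by
      have h1 : 1 - (t - u) / (v - u) = (v - t) / (v - u) := by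
        field_simp
        ring
      rw [h1]
      field_simp
    rw [this]
    exact fo_mu_W2_le h ht' hv

/-- `t ↦ ∫ ψ d(fo_mu π t)` is continuous (FO0): `continuous_iff_continuousAt`, `fo_weak_tendsto` with `l = 𝓝 t₀`, `νs = fo_mu π`;
`fo_mu π t = fo_mu π (clampTime t : ℝ)` and `W2sqR (μ_{t₀}) (μ_t) ≤ (clamp t - clamp t₀)² W2sqR μ₀ μ₁ → 0` (`fo_mu_W2_le`, `fo_W2sqR_le_of_le`,
`cu_continuous_clampTime`, squeeze). -/
theorem fo_mu_continuous (hfin : FiniteOnBoundedSets m) (h : GeoPlan m μ₀ μ₁ π C)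
    (h0 : BddDens m μ₀ M₀ o R) (h1 : BddDens m μ₁ M₁ o R) {ψ : X → ℝ}
    (hψ : IntegrableOn ψ (Metric.closedBall o (3 * R)) m) :
    Continuous (fun t : ℝ => ∫ x, ψ x ∂(fo_mu π t)) := by
  rw [continuous_iff_continuousAt]
  intro t₀
  have hfin2 : W2sq μ₀ μ₁ < ∞ := fo_W2sq_lt_top h0 h1
  have hcl : ∀ t : ℝ, fo_mu π t = fo_mu π ((clampTime t : Time) : ℝ) := fun t =>
    (fo_mu_coe π (clampTime t)).symm
  have hW : Tendsto (fun t => W2sqR (fo_mu π t₀) (fo_mu π t)) (𝓝 t₀) (𝓝 0) := by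
    have hub : ∀ t, W2sqR (fo_mu π t₀) (fo_mu π t)
        ≤ (((clampTime t : Time) : ℝ) - ((clampTime t₀ : Time) : ℝ)) ^ 2 * W2sqR μ₀ μ₁ := by
      intro t
      rw [hcl t₀, hcl t]
      exact fo_W2sqR_le_of_le (sq_nonneg _) hfin2
        (fo_mu_W2_le h (clampTime t₀).2 (clampTime t).2)
    have hc : Continuous (fun t : ℝ =>
        (((clampTime t : Time) : ℝ) - ((clampTime t₀ : Time) : ℝ)) ^ 2 * W2sqR μ₀ μ₁) :=
      (((continuous_subtype_val.comp cu_continuous_clampTime).sub continuous_const).pow 2).mul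
        continuous_const
    have hlim := hc.tendsto t₀
    simp only [sub_self, ne_eq, OfNat.ofNat_ne_zero, not_false_eq_true, zero_pow, zero_mul] at hlim
    exact squeeze_zero (fun t => fo_W2sqR_nonneg _ _) hub hlim
  exact fo_weak_tendsto hfin (fo_mu_bdd h h0 h1 t₀) (Eventually.of_forall (fo_mu_bdd h h0 h1)) hW hψ

end Claimed.Agent.R210.FO.Plan2
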