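/-
Row 210 (S0432), layer FO, architect helper920.   THE UPPER GRADIENT INEQUALITY ALONG A GEODESIC PLAN
`∫f dμ - ∫f dν ≤ (s/2) sup_r ∫|Df|² d(e_r)_#π + W₂²(μ,ν)/(2s)`.
-/
import Claimed.Agent.R210.FO.Plan

set_option autoImplicit false
set_option linter.unusedSectionVars false

open Claims.C0366 Claims.C0366.WeakHessian
open Set Filter MeasureTheory
open scoped ENNReal NNReal Topology

namespace Claimed.Agent.R210.FO.UG

open Claimed.Agent.R210.Defs Claimed.Agent.R210.FO.Defs Claimed.Agent.R210.FO.Basic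
  Claimed.Agent.R210.FO.W2 Claimed.Agent.R210.FO.Plan
open Claimed.Agent.R210.CU.Defs Claimed.Agent.R210.CU.IfcBasic Claimed.Agent.R210.CU.Ifc

variable {X : Type*} [MetricSpace X] [MeasurableSpace X] [BorelSpace X]
  [CompleteSpace X] [TopologicalSpace.SeparableSpace X] [ProperSpace X]
variable {m μ ν : Measure X} {π : Measure (Curve X)} {R : ℝ} {C M₀ M₁ : ℝ≥0} {o : X}

/-- Tonelli along a plan of bounded compression (`cu_aemeasurable_along`, `lintegral_lintegral_swap`,
`lintegral_map'`). -/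
theorem fo_swap (h : GeoPlan m μ ν π C) {D : X → ℝ≥0∞} (hD : AEMeasurable D m) :
    (∫⁻ γ, ∫⁻ t in Icc (0 : ℝ) 1, D (evalReal γ t) ∂volume ∂π)
      = ∫⁻ t in Icc (0 : ℝ) 1, ∫⁻ x, D x ∂(fo_mu π t) ∂volume := by
  haveI := h.prob
  have hC : cu_Compr m π C := h.comp
  have hm := cu_aemeasurable_along hC hD
  rw [lintegral_lintegral_swap (f := fun (γ : Curve X) (t : ℝ) => D (evalReal γ t)) hm]
  refine lintegral_congr fun t => ?_
  have hac : fo_mu π t ≪ m :=
    (Measure.absolutelyContinuous_of_le (h.comp (clampTime t))).trans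
      (Measure.smul_absolutelyContinuous)
  rw [fo_mu_eq_map, lintegral_map' (by rw [← fo_mu_eq_map]; exact hD.mono_ac hac)
    (cu_measurable_evalReal_time t).aemeasurable]

/-- Young's inequality in `ℝ≥0∞`. -/
theorem fo_young_ennreal (a : ℝ) {l s : ℝ} (hl : 0 ≤ l) (hs : 0 < s) :
    ENNReal.ofReal a * ENNReal.ofReal l ≤
      ENNReal.ofReal (s / 2) * ENNReal.ofReal (a ^ 2) + ENNReal.ofReal (1 / (2 * s)) * ENNReal.ofReal (l ^ 2) := by
  rcases le_total a 0 with ha | ha
  · rw [ENNReal.ofReal_of_nonpos ha, zero_mul]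
    exact zero_le
  · have h1 : a * l ≤ s / 2 * a ^ 2 + 1 / (2 * s) * l ^ 2 := by
      have h2 : 0 ≤ (s * a - l) ^ 2 := sq_nonneg _
      have h3 : s / 2 * a ^ 2 + 1 / (2 * s) * l ^ 2 = (s ^ 2 * a ^ 2 + l ^ 2) / (2 * s) := by
        field_simp
      rw [h3, le_div_iff₀ (by positivity)]
      nlinarith
    rw [← ENNReal.ofReal_mul ha, ← ENNReal.ofReal_mul (by positivity),
      ← ENNReal.ofReal_mul (by positivity), ← ENNReal.ofReal_add (by positivity) (by positivity)]
    exact ENNReal.ofReal_le_ofReal h1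

/-- the transport cost of a geodesic plan. -/
theorem fo_lintegral_len_sq (h : GeoPlan m μ ν π C) :
    ∫⁻ γ, ENNReal.ofReal (dist (γ timeZero) (γ timeOne) ^ 2) ∂π = W2sq μ ν := by
  haveI : SecondCountableTopology X := UniformSpace.secondCountable_of_separable X
  rw [fo_W2sq_eq_cost h.opt, QuadraticTransportCost, endpointCoupling,
    lintegral_map (measurable_edist.pow_const 2) cu_measurable_endpoints]
  refine lintegral_congr fun γ => ?_
  rw [edist_dist, ENNReal.ofReal_pow dist_nonneg]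

/-- the right hand side of the weak upper gradient inequality, for a geodesic plan, after Young's
inequality `D ℓ ≤ (s/2) D² + ℓ²/(2s)`.
Proof: for `π`-a.e. `γ` (`h.geo`), for a.e. `t ∈ Icc 0 1` (all `t ∈ Ioo 0 1`; `Ioo_ae_eq_Icc`): `metricSpeed γ t = ofReal ℓ`, `ℓ = dist (γ timeZero) (γ timeOne)`
(`cu_speed_geodesic`), and `ofReal D * ofReal ℓ ≤ ofReal (s/2) * ofReal (D²) + ofReal (1/(2s)) * ofReal (ℓ²)` (real Young inequality; if `D < 0` the left side is `0`).
Inner integral: `lintegral_add_right` (the second summand is constant in `t`, `volume (Icc 0 1) = 1`), `lintegral_const_mul'`/`lintegral_const_mul''`.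
Outer integral: `lintegral_add_right` (`γ ↦ ofReal (ℓ(γ)²)` is measurable: continuous), `fo_swap` for `x ↦ ofReal (D x ^ 2)`,
`∫⁻ ofReal (ℓ²) dπ = QuadraticTransportCost (endpointCoupling π) = W2sq μ ν` (`lintegral_map`, `edist_dist`, `fo_W2sq_eq_cost h.opt`).
To pull the constant `ofReal (s/2)` out of non-measurable integrands use `lintegral_const_mul'` (constant `≠ ∞`). -/
theorem fo_ug_young (h : GeoPlan m μ ν π C) {D : X → ℝ} (hD : AEMeasurable D m) {s : ℝ} (hs : 0 < s) :
    (∫⁻ γ, ∫⁻ t in Icc (0 : ℝ) 1, ENNReal.ofReal (D (evalReal γ t)) * metricSpeed γ t ∂volume ∂π)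
      ≤ ENNReal.ofReal (s / 2) * (∫⁻ t in Icc (0 : ℝ) 1, ∫⁻ x, ENNReal.ofReal (D x ^ 2) ∂(fo_mu π t) ∂volume)
        + ENNReal.ofReal (1 / (2 * s)) * W2sq μ ν := by
  haveI := h.prob
  have hae : ∀ᵐ t ∂(volume.restrict (Icc (0 : ℝ) 1)), t ∈ Ioo (0 : ℝ) 1 := by
    rw [← Measure.restrict_congr_set (Ioo_ae_eq_Icc (μ := volume) (a := (0 : ℝ)) (b := 1))]
    exact ae_restrict_mem measurableSet_Ioo
  have hinner : ∀ᵐ γ ∂π,
      (∫⁻ t in Icc (0 : ℝ) 1, ENNReal.ofReal (D (evalReal γ t)) * metricSpeed γ t ∂volume) ≤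
        ENNReal.ofReal (s / 2) * (∫⁻ t in Icc (0 : ℝ) 1, ENNReal.ofReal (D (evalReal γ t) ^ 2) ∂volume)
          + ENNReal.ofReal (1 / (2 * s)) * ENNReal.ofReal (dist (γ timeZero) (γ timeOne) ^ 2) := by
    filter_upwards [h.geo] with γ hγ
    calc (∫⁻ t in Icc (0 : ℝ) 1, ENNReal.ofReal (D (evalReal γ t)) * metricSpeed γ t ∂volume)
        ≤ ∫⁻ t in Icc (0 : ℝ) 1, (ENNReal.ofReal (s / 2) * ENNReal.ofReal (D (evalReal γ t) ^ 2)
            + ENNReal.ofReal (1 / (2 * s)) * ENNReal.ofReal (dist (γ timeZero) (γ timeOne) ^ 2)) ∂volume := by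
          refine lintegral_mono_ae ?_
          filter_upwards [hae] with t ht
          rw [cu_speed_geodesic hγ ht]
          exact fo_young_ennreal _ dist_nonneg hs
      _ = _ := by
          rw [lintegral_add_right _ measurable_const, lintegral_const_mul' _ _ ENNReal.ofReal_ne_top,
            lintegral_const]
          simp
  have hmeas : Measurable (fun γ : Curve X =>
      ENNReal.ofReal (1 / (2 * s)) * ENNReal.ofReal (dist (γ timeZero) (γ timeOne) ^ 2)) := by
    refine Measurable.const_mul ?_ _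
    refine ENNReal.measurable_ofReal.comp ?_
    exact (((cu_continuous_eval_time timeZero).dist (cu_continuous_eval_time timeOne)).pow 2).measurable
  calc (∫⁻ γ, ∫⁻ t in Icc (0 : ℝ) 1, ENNReal.ofReal (D (evalReal γ t)) * metricSpeed γ t ∂volume ∂π)
      ≤ ∫⁻ γ, (ENNReal.ofReal (s / 2) * (∫⁻ t in Icc (0 : ℝ) 1, ENNReal.ofReal (D (evalReal γ t) ^ 2) ∂volume)
          + ENNReal.ofReal (1 / (2 * s)) * ENNReal.ofReal (dist (γ timeZero) (γ timeOne) ^ 2)) ∂π :=
        lintegral_mono_ae hinner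
    _ = _ := by
        rw [lintegral_add_right _ hmeas, lintegral_const_mul' _ _ ENNReal.ofReal_ne_top,
          lintegral_const_mul' _ _ ENNReal.ofReal_ne_top, fo_lintegral_len_sq h,
          fo_swap h (D := fun x => ENNReal.ofReal (D x ^ 2)) (hD.pow_const 2).ennreal_ofReal]

end Claimed.Agent.R210.FO.UG
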