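/-
Row 210 (S0432), layer FO, architect helper920.   THE UPPER GRADIENT INEQUALITY ALONG A GEODESIC PLAN (real form).
-/
import Claimed.Agent.R210.FO.UG

set_option autoImplicit false
set_option linter.unusedSectionVars false

open Claims.C0366 Claims.C0366.WeakHessian
open Set Filter MeasureTheory
open scoped ENNReal NNReal Topology

namespace Claimed.Agent.R210.FO.UG2

open Claimed.Agent.R210.Defs Claimed.Agent.R210.FO.Defs Claimed.Agent.R210.FO.Basic Claimed.Agent.R210.FO.W2 Claimed.Agent.R210.FO.Plan Claimed.Agent.R210.FO.UG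
open Claimed.Agent.R210.CU.Defs Claimed.Agent.R210.CU.IfcBasic Claimed.Agent.R210.CU.Ifc

variable {X : Type*} [MetricSpace X] [MeasurableSpace X] [BorelSpace X]
  [CompleteSpace X] [TopologicalSpace.SeparableSpace X] [ProperSpace X]
variable {m μ ν : Measure X} {π : Measure (Curve X)} {R : ℝ} {C M₀ M₁ : ℝ≥0} {o : X}

/-- **upper gradient inequality along a geodesic plan.**
Proof: `D := weakGradient m f`; `fo_wg_wug hf : IsLocalWeakUpperGradient m f D`; its third component applied to `π`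
(`cu_testPlan_of_geoPlan h`, `h.tracks`) gives `∫⁻ ofReal |f(γ_1) - f(γ_0)| dπ ≤ ∫⁻∫⁻ ofReal (D(γ_t)) * speed`.  `fo_ug_young` (with `cu_aemeasurable_of_locallyL2 (fo_wg_locL2 hf)`)
bounds the right side by `ofReal (s/2) * ∫⁻_t ∫⁻ ofReal (D²) d(fo_mu π t) + ofReal (1/(2s)) * W2sq μ ν`.
For `t ∈ Icc 0 1`: `∫⁻ ofReal (D²) d(fo_mu π t) = ofReal (∫ D² d(fo_mu π t)) ≤ ofReal B` (`ofReal_integral_eq_lintegral_ofReal`, integrability: `fo_integrable_wg_sq (fo_mu_bdd h h0 h1 t) hf`),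
so `∫⁻_t … ≤ ofReal B` (`setLIntegral_mono'`/`lintegral_mono_ae`, `volume (Icc 0 1) = 1`).  `W2sq μ ν < ∞` (`fo_W2sq_lt_top h0 h1`), `W2sq μ ν = ofReal (W2sqR μ ν)`.
Left side: `∫f dμ - ∫f dν = ∫ (f(γ_0) - f(γ_1)) dπ ≤ ∫ |f(γ_1) - f(γ_0)| dπ = (∫⁻ ofReal |…|).toReal`
(`fo_mu_zero`, `fo_mu_one`, `fo_integral_mu`, `cu_evalReal_zero/one`, `fo_integrable hfin h0 hf`, `integrable_map_measure`, `integral_eq_lintegral_of_nonneg_ae`). `0 ≤ B` from `hB 0`. -/
theorem fo_ug (hfin : FiniteOnBoundedSets m) (h : GeoPlan m μ ν π C) (h0 : BddDens m μ M₀ o R)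
    (h1 : BddDens m ν M₁ o R) {f : X → ℝ} (hf : LocalSobolev m f) {s B : ℝ} (hs : 0 < s)
    (hB : ∀ r ∈ Icc (0 : ℝ) 1, ∫ x, weakGradient m f x ^ 2 ∂(fo_mu π r) ≤ B) :
    ∫ x, f x ∂μ - ∫ x, f x ∂ν ≤ s / 2 * B + W2sqR μ ν / (2 * s) := by
  have hw := fo_wg_wug hf
  have h3 := hw.2.2 π (cu_testPlan_of_geoPlan h) h.tracks
  have hy := fo_ug_young h (cu_aemeasurable_of_locallyL2 (fo_wg_locL2 hf)) hs
  have hB0 : 0 ≤ B :=
    le_trans (integral_nonneg (fun x => sq_nonneg _)) (hB 0 ⟨le_rfl, zero_le_one⟩)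
  have hWn : 0 ≤ W2sqR μ ν := fo_W2sqR_nonneg μ ν
  -- inner bound
  have hin : ∫⁻ t in Icc (0:ℝ) 1, ∫⁻ x, ENNReal.ofReal (weakGradient m f x ^ 2) ∂(fo_mu π t) ∂volume
      ≤ ENNReal.ofReal B := by
    calc ∫⁻ t in Icc (0:ℝ) 1, ∫⁻ x, ENNReal.ofReal (weakGradient m f x ^ 2) ∂(fo_mu π t) ∂volume
        ≤ ∫⁻ _t in Icc (0:ℝ) 1, ENNReal.ofReal B ∂volume := by
            refine setLIntegral_mono' measurableSet_Icc (fun t ht => ?_)
            rw [← ofReal_integral_eq_lintegral_ofReal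
              (fo_integrable_wg_sq (fo_mu_bdd h h0 h1 t) hf) (ae_of_all _ fun x => sq_nonneg _)]
            exact ENNReal.ofReal_le_ofReal (hB t ht)
      _ = ENNReal.ofReal B := by simp
  have hW : W2sq μ ν = ENNReal.ofReal (W2sqR μ ν) :=
    (ENNReal.ofReal_toReal (fo_W2sq_lt_top h0 h1).ne).symm
  have htot : ∫⁻ γ, ENNReal.ofReal |f (γ timeOne) - f (γ timeZero)| ∂π
      ≤ ENNReal.ofReal (s / 2 * B + W2sqR μ ν / (2 * s)) := by
    refine h3.trans (hy.trans ?_)
    have e1 : ENNReal.ofReal (s / 2 * B + W2sqR μ ν / (2 * s))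
        = ENNReal.ofReal (s / 2) * ENNReal.ofReal B
          + ENNReal.ofReal (1 / (2 * s)) * ENNReal.ofReal (W2sqR μ ν) := by
      have e2 : W2sqR μ ν / (2 * s) = 1 / (2 * s) * W2sqR μ ν := by ring
      rw [ENNReal.ofReal_add (by positivity) (by positivity),
        ENNReal.ofReal_mul (by positivity), e2, ENNReal.ofReal_mul (by positivity)]
    rw [e1, hW]
    gcongr
  -- the left side
  have hμ : μ = Measure.map (fun γ : Curve X => γ timeZero) π := by
    have h' := fo_mu_zero h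
    rw [fo_mu_eq_map] at h'
    simpa only [cu_evalReal_zero] using h'.symm
  have hν : ν = Measure.map (fun γ : Curve X => γ timeOne) π := by
    have h' := fo_mu_one h
    rw [fo_mu_eq_map] at h'
    simpa only [cu_evalReal_one] using h'.symm
  have hi0 : Integrable f μ := fo_integrable hfin h0 hf
  have hi1 : Integrable f ν := fo_integrable hfin h1 hf
  have e0 : ∫ x, f x ∂μ = ∫ γ, f (γ timeZero) ∂π := by
    rw [hμ] at hi0 ⊢
    exact integral_map (cu_measurable_eval timeZero).aemeasurable hi0.aestronglyMeasurable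
  have e1 : ∫ x, f x ∂ν = ∫ γ, f (γ timeOne) ∂π := by
    rw [hν] at hi1 ⊢
    exact integral_map (cu_measurable_eval timeOne).aemeasurable hi1.aestronglyMeasurable
  have j0 : Integrable (fun γ : Curve X => f (γ timeZero)) π := by
    rw [hμ] at hi0
    exact (integrable_map_measure hi0.aestronglyMeasurable
      (cu_measurable_eval timeZero).aemeasurable).1 hi0
  have j1 : Integrable (fun γ : Curve X => f (γ timeOne)) π := by
    rw [hν] at hi1
    exact (integrable_map_measure hi1.aestronglyMeasurable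
      (cu_measurable_eval timeOne).aemeasurable).1 hi1
  have jd : Integrable (fun γ : Curve X => f (γ timeOne) - f (γ timeZero)) π := j1.sub j0
  calc ∫ x, f x ∂μ - ∫ x, f x ∂ν
      = ∫ γ, (f (γ timeZero) - f (γ timeOne)) ∂π := by rw [e0, e1, integral_sub j0 j1]
    _ ≤ ∫ γ, |f (γ timeOne) - f (γ timeZero)| ∂π := by
        refine integral_mono (j0.sub j1) jd.abs (fun γ => ?_)
        show f (γ timeZero) - f (γ timeOne) ≤ |f (γ timeOne) - f (γ timeZero)|
        rw [abs_sub_comm]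
        exact le_abs_self _
    _ = (∫⁻ γ, ENNReal.ofReal |f (γ timeOne) - f (γ timeZero)| ∂π).toReal :=
        integral_eq_lintegral_of_nonneg_ae (ae_of_all _ fun _ => abs_nonneg _)
          jd.abs.aestronglyMeasurable
    _ ≤ (ENNReal.ofReal (s / 2 * B + W2sqR μ ν / (2 * s))).toReal :=
        ENNReal.toReal_mono ENNReal.ofReal_ne_top htot
    _ = s / 2 * B + W2sqR μ ν / (2 * s) := ENNReal.toReal_ofReal (by positivity)

end Claimed.Agent.R210.FO.UG2
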