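/-
Row 210 (S0432), layer FO, architect helper920.   FO1: the abstract first order inequality.
-/
import Claimed.Agent.R210.FO.UG2
import Claimed.Agent.R210.FO.Plan2
import Claimed.Agent.R210.GM.Ifc

set_option autoImplicit false
set_option linter.unusedSectionVars false

open Claims.C0366 Claims.C0366.WeakHessian
open Set Filter MeasureTheory
open scoped ENNReal NNReal Topology

namespace Claimed.Agent.R210.FO.Abs

open Claimed.Agent.R210.Defs Claimed.Agent.R210.FO.Defs Claimed.Agent.R210.FO.Basic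
  Claimed.Agent.R210.FO.W2 Claimed.Agent.R210.FO.Weak Claimed.Agent.R210.FO.Plan
  Claimed.Agent.R210.FO.Plan2 Claimed.Agent.R210.FO.UG2 Claimed.Agent.R210.FO.Need

variable {X : Type*} [MetricSpace X] [MeasurableSpace X] [BorelSpace X]
  [CompleteSpace X] [TopologicalSpace.SeparableSpace X] [ProperSpace X]
variable {m : Measure X} {K N R : ℝ} {M : ℝ≥0} {o : X}

/-- the uniform compression constant of the plans used in FO1. -/
noncomputable def fo_cc (K R : ℝ) (M : ℝ≥0) : ℝ≥0 := GM.Defs.gm_cg K (2 * R) M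

/-- (`GM.Ifc.gm_GM4 hS h0 h1 (GM.Ifc.gm_HD_two_mul h0 h1) _`, `max_self`, `fo_bdd_radius_nonneg`.)
GM4 in the form used here: a geodesic plan with a compression constant depending only on `K, R, M`. -/
theorem fo_exists_plan (hS : Std m K N) {μ ν : Measure X} (h0 : BddDens m μ M o R)
    (h1 : BddDens m ν M o R) : ∃ π : Measure (Curve X), GeoPlan m μ ν π (fo_cc K R M) := by
  have hR : 0 ≤ R := fo_bdd_radius_nonneg h0
  obtain ⟨π, hπ, -⟩ := GM.Ifc.gm_GM4 hS h0 h1 (GM.Ifc.gm_HD_two_mul h0 h1)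
    (by positivity : (0 : ℝ) ≤ 2 * R)
  rw [max_self] at hπ
  exact ⟨π, hπ⟩

/-- **one step inequality** (no limit).  `ψ' ` is a Lipschitz approximation of `|D(a + e g)|²`
in `L¹(closedBall o (3R))`.
Proof.  `hh : LocalSobolev m h`, `h := fun y => a y + e * g y` (`fo_need_add`, `fo_need_const_mul`), `ψ := |Dh|²`, `π` from `fo_exists_plan hS h0 h1`, `C := fo_cc K R M`.
(1) for `r ∈ Icc 0 1`: `fo_weak_quant` with `μ := μ0` (`BddDens M o (3R)` by `fo_bdd_mono`, `fo_bdd_radius_nonneg`), `ν := fo_mu π r` (`fo_mu_bdd`), `ψ` (`fo_wg_sq_integrableOn hh`), `ψ'`: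
    `∫ψ d(fo_mu π r) ≤ ∫ψ dμ0 + η + L * sqrt (W2sqR μ0 (fo_mu π r))`, and `W2sqR μ0 (fo_mu π r) ≤ r² W2sqR μ0 μ1 ≤ s² V` (`fo_mu_zero`, `fo_mu_W2_le`, `fo_W2sqR_le_of_le`), so `sqrt ≤ s sqrt V`.
    Put `B := ∫ψ dμ0 + η + L * s * sqrt V`.
(2) `fo_ug`: `∫h dμ0 - ∫h dμ1 ≤ s/2 * B + W2sqR μ0 μ1/(2s) ≤ s/2 * B + s V/2`.
(3) `∫h dμ = ∫a dμ + e ∫g dμ` (`integral_add`, `integral_const_mul`, `fo_integrable`), so with `Δ := ∫g dμ0 - ∫g dμ1` and `hlow`: `(s - s²/2) V + e Δ ≤ s/2 * B + s V/2`.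
(4) `fo_need_expand` + `fo_bdd_ae h0` + `integral_congr_ae`: `∫ψ dμ0 = ∫|Da|² dμ0 + 2e ∫Γ(g,a) dμ0 + e² ∫|Dg|² dμ0 ≤ V + 2eΓ + e²G` (`fo_integrable_wg_sq`, `fo_integrable_gamma`).
(5) algebra: `e Δ ≤ (s/2)(2eΓ + e²G + η + L s sqrt V + s V)`; divide by `e s`. -/
theorem fo_step (hS : Std m K N) {μ0 μ1 : Measure X} (h0 : BddDens m μ0 M o R)
    (h1 : BddDens m μ1 M o R) {a g : X → ℝ} (ha : LocalSobolev m a) (hg : LocalSobolev m g)
    {V s e η : ℝ} (hV : 0 ≤ V) (hs : 0 < s) (he : 0 < e)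
    (hDa : ∫ x, weakGradient m a x ^ 2 ∂μ0 ≤ V)
    (hW2 : W2sqR μ0 μ1 ≤ s ^ 2 * V)
    (hlow : (s - s ^ 2 / 2) * V ≤ ∫ x, a x ∂μ0 - ∫ x, a x ∂μ1)
    {L : ℝ≥0} {ψ' : X → ℝ} (hψ' : LipschitzWith L ψ')
    (hη : ((M : ℝ) + fo_cc K R M) * ∫ x in Metric.closedBall o (3 * R),
        |weakGradient m (fun y => a y + e * g y) x ^ 2 - ψ' x| ∂m ≤ η) :
    (∫ x, g x ∂μ0 - ∫ x, g x ∂μ1) / s
      ≤ ∫ x, gamma m g a x ∂μ0 + e / 2 * ∫ x, weakGradient m g x ^ 2 ∂μ0 + η / (2 * e)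
        + s * (L * Real.sqrt V + V) / (2 * e) := by
  have hR : 0 ≤ R := fo_bdd_radius_nonneg h0
  have hfin := hS.finite
  have hh : LocalSobolev m (fun y => a y + e * g y) :=
    fo_need_add hS ha (fo_need_const_mul hS e hg)
  obtain ⟨π, hπ⟩ := fo_exists_plan hS h0 h1
  have h0' : BddDens m μ0 M o (3 * R) := fo_bdd_mono h0 le_rfl (by linarith)
  set ψ : X → ℝ := fun x => weakGradient m (fun y => a y + e * g y) x ^ 2 with hψdef
  set sV : ℝ := Real.sqrt V with hsV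
  have hsV0 : 0 ≤ sV := Real.sqrt_nonneg V
  -- (1)
  have hB : ∀ r ∈ Icc (0 : ℝ) 1, ∫ x, weakGradient m (fun y => a y + e * g y) x ^ 2 ∂(fo_mu π r)
      ≤ ∫ x, ψ x ∂μ0 + η + L * (s * sV) := by
    intro r hr
    have hq := fo_weak_quant hfin h0' (fo_mu_bdd hπ h0 h1 r)
      (fo_wg_sq_integrableOn hh o (3 * R)) hψ'
    have hW : W2sqR μ0 (fo_mu π r) ≤ s ^ 2 * V := by
      have h2 := fo_mu_W2_le hπ (u := 0) (v := r) ⟨le_rfl, zero_le_one⟩ hr
      rw [fo_mu_zero hπ] at h2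
      have h3 := fo_W2sqR_le_of_le (sq_nonneg (r - 0)) (fo_W2sq_lt_top h0 h1) h2
      have h4 : (r - 0) ^ 2 ≤ 1 := by
        rw [sub_zero]
        exact pow_le_one₀ hr.1 hr.2
      calc W2sqR μ0 (fo_mu π r) ≤ (r - 0) ^ 2 * W2sqR μ0 μ1 := h3
        _ ≤ 1 * W2sqR μ0 μ1 := mul_le_mul_of_nonneg_right h4 (fo_W2sqR_nonneg _ _)
        _ = W2sqR μ0 μ1 := one_mul _
        _ ≤ s ^ 2 * V := hW2
    have hsq : Real.sqrt (W2sqR μ0 (fo_mu π r)) ≤ s * sV := by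
      calc Real.sqrt (W2sqR μ0 (fo_mu π r)) ≤ Real.sqrt (s ^ 2 * V) := Real.sqrt_le_sqrt hW
        _ = s * sV := by
            rw [Real.sqrt_mul (sq_nonneg s), Real.sqrt_sq hs.le]
    have h5 := (le_abs_self _).trans hq
    have h6 : (L : ℝ) * Real.sqrt (W2sqR μ0 (fo_mu π r)) ≤ L * (s * sV) :=
      mul_le_mul_of_nonneg_left hsq L.2
    show ∫ x, ψ x ∂(fo_mu π r) ≤ _
    linarith
  -- (2)
  have hug := fo_ug hfin hπ h0 h1 hh hs hB
  have hW2' : W2sqR μ0 μ1 / (2 * s) ≤ s * V / 2 := by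
    rw [div_le_iff₀ (by positivity)]
    calc W2sqR μ0 μ1 ≤ s ^ 2 * V := hW2
      _ = s * V / 2 * (2 * s) := by ring
  -- (3)
  have hi0 : ∫ x, (a x + e * g x) ∂μ0 = ∫ x, a x ∂μ0 + e * ∫ x, g x ∂μ0 := by
    rw [integral_add (fo_integrable hfin h0 ha) ((fo_integrable hfin h0 hg).const_mul e),
      integral_const_mul]
  have hi1 : ∫ x, (a x + e * g x) ∂μ1 = ∫ x, a x ∂μ1 + e * ∫ x, g x ∂μ1 := by
    rw [integral_add (fo_integrable hfin h1 ha) ((fo_integrable hfin h1 hg).const_mul e),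
      integral_const_mul]
  -- (4)
  have hexp : ∫ x, ψ x ∂μ0 = ∫ x, weakGradient m a x ^ 2 ∂μ0 + 2 * e * ∫ x, gamma m g a x ∂μ0
      + e ^ 2 * ∫ x, weakGradient m g x ^ 2 ∂μ0 := by
    have hae := fo_bdd_ae h0 (fo_need_expand hS ha hg e)
    have i1 := fo_integrable_wg_sq h0 ha
    have i2 := (fo_integrable_gamma hS h0 hg ha).const_mul (2 * e)
    have i3 := (fo_integrable_wg_sq h0 hg).const_mul (e ^ 2)
    have i12 : Integrable (fun x => weakGradient m a x ^ 2 + 2 * e * gamma m g a x) μ0 := i1.add i2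
    rw [integral_congr_ae hae, integral_add i12 i3, integral_add i1 i2,
      integral_const_mul, integral_const_mul]
  -- (5)
  rw [hi0, hi1] at hug
  set Δ : ℝ := ∫ x, g x ∂μ0 - ∫ x, g x ∂μ1 with hΔ
  set Γ : ℝ := ∫ x, gamma m g a x ∂μ0 with hΓ
  set G : ℝ := ∫ x, weakGradient m g x ^ 2 ∂μ0 with hG
  have key : e * Δ ≤ s / 2 * (2 * e * Γ + e ^ 2 * G + η + L * (s * sV) + s * V) := by
    have h7 : s / 2 * (∫ x, ψ x ∂μ0 + η + L * (s * sV)) ≤
        s / 2 * (V + 2 * e * Γ + e ^ 2 * G + η + L * (s * sV)) := by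
      refine mul_le_mul_of_nonneg_left ?_ (by positivity)
      rw [hexp]
      linarith
    have h8 : e * Δ = e * ∫ x, g x ∂μ0 - e * ∫ x, g x ∂μ1 := by
      rw [hΔ]
      ring
    nlinarith [h7, hug, hW2', hlow]
  rw [div_le_iff₀ hs]
  have e9 : (Γ + e / 2 * G + η / (2 * e) + s * (L * sV + V) / (2 * e)) * s =
      (s / 2 * (2 * e * Γ + e ^ 2 * G + η + L * (s * sV) + s * V)) / e := by
    field_simp
    ring
  rw [e9, le_div_iff₀ he]
  linarith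

end Claimed.Agent.R210.FO.Abs
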