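/-
Row 210 (S0432), layer FO, architect helper920.   FO1: the abstract first order inequality (limit form).
-/
import Claimed.Agent.R210.FO.Abs

set_option autoImplicit false
set_option linter.unusedSectionVars false

open Claims.C0366 Claims.C0366.WeakHessian
open Set Filter MeasureTheory
open scoped ENNReal NNReal Topology

namespace Claimed.Agent.R210.FO.Abs2

open Claimed.Agent.R210.Defs Claimed.Agent.R210.FO.Defs Claimed.Agent.R210.FO.Basic Claimed.Agent.R210.FO.W2 Claimed.Agent.R210.FO.Dense Claimed.Agent.R210.FO.Abs Claimed.Agent.R210.FO.Need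

variable {X : Type*} [MetricSpace X] [MeasurableSpace X] [BorelSpace X]
  [CompleteSpace X] [TopologicalSpace.SeparableSpace X] [ProperSpace X]
variable {m : Measure X} {K N R : ℝ} {M : ℝ≥0} {o : X}

/-- **FO1** (abstract first order inequality), along an arbitrary filter, in "eventually" form
(equivalent to `liminf (∫g dμ_i - ∫g dμ0)/s_i ≥ -∫Γ(g,a) dμ0`).  `V` plays the role of `W²`.
Proof: `G := ∫|Dg|² dμ0 ≥ 0`, `e := 2ε/(3(G+1))`, `η := 2eε/3`; `fo_lip_dense hS.finite (fo_wg_sq_integrableOn _ o (3R))` with tolerance `η/(M + fo_cc K R M + 1)` gives `L, ψ'`;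
eventually `s i * (L sqrt V + V)/(2e) ≤ ε/3` (`hs0`); `filter_upwards` and `fo_step`:
`(∫g dμ0 - ∫g dμ_i)/s_i ≤ Γ + ε/3 + ε/3 + ε/3`; finally `(∫g dμ_i - ∫g dμ0)/s_i = -((∫g dμ0 - ∫g dμ_i)/s_i)`. -/
theorem fo_abstract (hS : Std m K N) {ι : Type*} {l : Filter ι} {μ0 : Measure X}
    {μ : ι → Measure X} {s : ι → ℝ} (h0 : BddDens m μ0 M o R)
    (hμ : ∀ᶠ i in l, BddDens m (μ i) M o R) {a g : X → ℝ} (ha : LocalSobolev m a)
    (hg : LocalSobolev m g) {V : ℝ} (hV : 0 ≤ V)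
    (hDa : ∫ x, weakGradient m a x ^ 2 ∂μ0 ≤ V)
    (hs : ∀ᶠ i in l, 0 < s i) (hs0 : Tendsto s l (𝓝 0))
    (hW2 : ∀ᶠ i in l, W2sqR μ0 (μ i) ≤ s i ^ 2 * V)
    (hlow : ∀ᶠ i in l, (s i - s i ^ 2 / 2) * V ≤ ∫ x, a x ∂μ0 - ∫ x, a x ∂(μ i)) :
    ∀ ε : ℝ, 0 < ε → ∀ᶠ i in l,
      -(∫ x, gamma m g a x ∂μ0) - ε ≤ (∫ x, g x ∂(μ i) - ∫ x, g x ∂μ0) / s i := by
  intro ε hε
  set G : ℝ := ∫ x, weakGradient m g x ^ 2 ∂μ0 with hG
  have hG0 : 0 ≤ G := integral_nonneg (fun x => sq_nonneg _)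
  set e : ℝ := 2 * ε / (3 * (G + 1)) with he
  have he0 : 0 < e := by positivity
  set η : ℝ := 2 * e * ε / 3 with hη
  have hη0 : 0 < η := by positivity
  set c : ℝ := (M : ℝ) + fo_cc K R M with hc
  have hc0 : 0 ≤ c := by positivity
  have hh : LocalSobolev m (fun y => a y + e * g y) :=
    fo_need_add hS ha (fo_need_const_mul hS e hg)
  obtain ⟨L, ψ', hL, hψ'⟩ := fo_lip_dense hS.finite (fo_wg_sq_integrableOn hh o (3 * R))
    (η := η / (c + 1)) (by positivity)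
  have hη' : c * ∫ x in Metric.closedBall o (3 * R),
      |weakGradient m (fun y => a y + e * g y) x ^ 2 - ψ' x| ∂m ≤ η := by
    calc c * ∫ x in Metric.closedBall o (3 * R),
          |weakGradient m (fun y => a y + e * g y) x ^ 2 - ψ' x| ∂m
        ≤ c * (η / (c + 1)) := mul_le_mul_of_nonneg_left hψ' hc0
      _ ≤ η := by
        rw [mul_div_assoc', div_le_iff₀ (by positivity)]
        nlinarith
  set A : ℝ := ((L : ℝ) * Real.sqrt V + V) / (2 * e) with hA
  have hA0 : 0 ≤ A := by positivity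
  have hsmall : ∀ᶠ i in l, s i * A < ε / 3 + 0 := by
    have : Tendsto (fun i => s i * A) l (𝓝 (0 * A)) := hs0.mul_const A
    rw [zero_mul] at this
    have h3 : (0 : ℝ) < ε / 3 + 0 := by positivity
    exact this.eventually (gt_mem_nhds h3)
  filter_upwards [hμ, hs, hW2, hlow, hsmall] with i h1 hsi hW2i hlowi hsm
  have key := fo_step hS h0 h1 ha hg hV hsi he0 hDa hW2i hlowi hL hη'
  have e1 : e / 2 * G ≤ ε / 3 := by
    rw [he]
    have : 2 * ε / (3 * (G + 1)) / 2 * G = ε / 3 * (G / (G + 1)) := by field_simp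
    rw [this]
    have : G / (G + 1) ≤ 1 := by rw [div_le_one (by positivity)]; linarith
    nlinarith
  have e2 : η / (2 * e) = ε / 3 := by rw [hη]; field_simp
  have e3 : s i * ((L : ℝ) * Real.sqrt V + V) / (2 * e) = s i * A := by rw [hA]; ring
  have e4 : (∫ x, g x ∂(μ i) - ∫ x, g x ∂μ0) / s i = -((∫ x, g x ∂μ0 - ∫ x, g x ∂(μ i)) / s i) := by
    ring
  rw [e4]
  rw [e2, e3] at key
  linarith

end Claimed.Agent.R210.FO.Abs2
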