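/-
Row 210 (S0432), layer FO, architect helper920.   FO2: Kantorovich pairs.
-/
import Claimed.Agent.R210.FO.Dual

set_option autoImplicit false
set_option linter.unusedSectionVars false

open Claims.C0366 Claims.C0366.WeakHessian
open Set Filter MeasureTheory
open scoped ENNReal NNReal Topology

namespace Claimed.Agent.R210.FO.Pair

open Claimed.Agent.R210.Defs Claimed.Agent.R210.FO.Defs Claimed.Agent.R210.FO.Basic Claimed.Agent.R210.FO.W2 Claimed.Agent.R210.FO.Dual Claimed.Agent.R210.FO.Need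

variable {X : Type*} [MetricSpace X] [MeasurableSpace X] [BorelSpace X]
  [CompleteSpace X] [TopologicalSpace.SeparableSpace X] [ProperSpace X]
variable {m μ₀ μ₁ ν : Measure X} {K N R : ℝ} {M : ℝ≥0} {o : X} {a b : X → ℝ}

/-- at a contact point `(x,y)` of `a ⊕ b ≤ d²/2` the ascending slope of `a` at `x` is `≤ d(x,y)`.
Proof: `a z - a x ≤ d(z,y)²/2 - d(x,y)²/2 ≤ d(z,x) (d(x,y) + d(z,x)/2)` (triangle inequality), so for `z ≠ x` the quotient is `≤ d(x,y) + d(z,x)/2`.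
For every `ε > 0` eventually in `𝓝[≠] x`: `ofReal (quotient) ≤ ofReal (d(x,y) + ε)`; `Filter.limsup_le_of_le`; then `ε → 0` (`ENNReal.le_of_forall_pos_le_add` or continuity of `ofReal`). -/
theorem fo_asc_le_of_contact (hle : ∀ x y, a x + b y ≤ dist x y ^ 2 / 2) {x y : X}
    (heq : a x + b y = dist x y ^ 2 / 2) : fo_asc a x ≤ ENNReal.ofReal (dist x y) := by
  refine ENNReal.le_of_forall_pos_le_add fun ε hε _ => ?_
  have hε' : (0 : ℝ) < ε := hε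
  have h1 : ENNReal.ofReal (dist x y) + (ε : ℝ≥0∞) = ENNReal.ofReal (dist x y + ε) := by
    rw [ENNReal.ofReal_add dist_nonneg hε'.le, ENNReal.ofReal_coe_nnreal]
  rw [h1]
  refine Filter.limsup_le_of_le (by isBoundedDefault) ?_
  have hball : ∀ᶠ z in 𝓝[≠] x, dist z x < ε :=
    nhdsWithin_le_nhds (Metric.ball_mem_nhds x hε')
  filter_upwards [hball, self_mem_nhdsWithin] with z hz hzx
  apply ENNReal.ofReal_le_ofReal
  have hr : 0 < dist z x := dist_pos.2 hzx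
  rw [div_le_iff₀ hr]
  have h2 := hle z y
  have h3 : dist z y ≤ dist z x + dist x y := dist_triangle z x y
  have h4 : dist z y ^ 2 ≤ (dist z x + dist x y) ^ 2 := pow_le_pow_left₀ dist_nonneg h3 2
  nlinarith [dist_nonneg (x := x) (y := y), mul_pos hr (sub_pos.2 hz)]

/-- `∫|Da|² dμ₀ ≤ W₂²(μ₀,μ₁)` for a Kantorovich pair.
Proof: `q` optimal with `a p.1 + b p.2 = d²/2` `q`-a.e. (`hK.eq`).  `D := weakGradient m a`, `LocalSobolev m a` by `fo_need_lip hS hK.lip_a`.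
`fo_need_asc hS hK.lip_a` holds `m`-a.e., hence `μ₀`-a.e. (`fo_bdd_ae`), hence for `q`-a.e. `p` at `p.1` (`map Prod.fst q = μ₀`, `ae_of_ae_map`).
So `q`-a.e. `ofReal (D p.1) ≤ fo_asc a p.1 ≤ ofReal (dist p.1 p.2)` and (also `0 ≤ D p.1` a.e., `fo_wg_nonneg`) `ofReal (D p.1 ^ 2) ≤ edist p.1 p.2 ^ 2`.
`∫⁻ ofReal (D²) dμ₀ = ∫⁻ ofReal (D²) d(map Prod.fst q) ≤ ∫⁻ ofReal (D p.1 ^ 2) dq` (`lintegral_map_le`, no measurability needed) `≤ QuadraticTransportCost q = W2sq μ₀ μ₁` (`fo_W2sq_eq_cost`).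
Finally `∫ D² dμ₀ = (∫⁻ ofReal (D²) dμ₀).toReal` (`integral_eq_lintegral_of_nonneg_ae`, `fo_integrable_wg_sq`), `ENNReal.toReal_mono` (`fo_W2sq_lt_top`). -/
theorem fo_kpair_grad (hS : Std m K N) (h0 : BddDens m μ₀ M o R) (h1 : BddDens m μ₁ M o R)
    (hK : KPair μ₀ μ₁ a b) : ∫ x, weakGradient m a x ^ 2 ∂μ₀ ≤ W2sqR μ₀ μ₁ := by
  obtain ⟨q, hq, hqe⟩ := hK.eq
  have hls : LocalSobolev m a := fo_need_lip hS hK.lip_a
  have hasc : ∀ᵐ x ∂μ₀, ENNReal.ofReal (weakGradient m a x) ≤ fo_asc a x :=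
    fo_bdd_ae h0 (fo_need_asc hS hK.lip_a)
  have hnn : ∀ᵐ x ∂μ₀, 0 ≤ weakGradient m a x := fo_bdd_ae h0 (fo_wg_nonneg hls)
  have hfst : Measure.map Prod.fst q = μ₀ := hq.1.1
  have hasc' : ∀ᵐ p ∂q, ENNReal.ofReal (weakGradient m a p.1) ≤ fo_asc a p.1 := by
    rw [← hfst] at hasc
    exact ae_of_ae_map measurable_fst.aemeasurable hasc
  have hnn' : ∀ᵐ p ∂q, 0 ≤ weakGradient m a p.1 := by
    rw [← hfst] at hnn
    exact ae_of_ae_map measurable_fst.aemeasurable hnn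
  have hpt : ∀ᵐ p ∂q, ENNReal.ofReal (weakGradient m a p.1 ^ 2) ≤ edist p.1 p.2 ^ 2 := by
    filter_upwards [hasc', hnn', hqe] with p e1 e2 e3
    have e4 := e1.trans (fo_asc_le_of_contact hK.le e3)
    rw [ENNReal.ofReal_pow e2, edist_dist]
    gcongr
  have hl : ∫⁻ x, ENNReal.ofReal (weakGradient m a x ^ 2) ∂μ₀ ≤ W2sq μ₀ μ₁ := by
    calc ∫⁻ x, ENNReal.ofReal (weakGradient m a x ^ 2) ∂μ₀
        = ∫⁻ x, ENNReal.ofReal (weakGradient m a x ^ 2) ∂(Measure.map Prod.fst q) := by rw [hfst]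
      _ ≤ ∫⁻ p, ENNReal.ofReal (weakGradient m a p.1 ^ 2) ∂q := lintegral_map_le _ _
      _ ≤ ∫⁻ p, edist p.1 p.2 ^ 2 ∂q := lintegral_mono_ae hpt
      _ = W2sq μ₀ μ₁ := (fo_W2sq_eq_cost hq).symm
  have hint := fo_integrable_wg_sq h0 hls
  rw [integral_eq_lintegral_of_nonneg_ae (Eventually.of_forall fun x => sq_nonneg _)
    hint.aestronglyMeasurable]
  exact ENNReal.toReal_mono (fo_W2sq_lt_top h0 h1).ne hl

end Claimed.Agent.R210.FO.Pair
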