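/-
Row 210 (S0432), layer FO, architect helper920.   FO2: first order differentiation for Kantorovich pairs.
-/
import Claimed.Agent.R210.FO.Pair
import Claimed.Agent.R210.FO.Abs2

set_option autoImplicit false
set_option linter.unusedSectionVars false

open Claims.C0366 Claims.C0366.WeakHessian
open Set Filter MeasureTheory
open scoped ENNReal NNReal Topology

namespace Claimed.Agent.R210.FO.Pair2

open Claimed.Agent.R210.Defs Claimed.Agent.R210.FO.Defs Claimed.Agent.R210.FO.Basic Claimed.Agent.R210.FO.W2 Claimed.Agent.R210.FO.Dual Claimed.Agent.R210.FO.Need Claimed.Agent.R210.FO.Abs2 Claimed.Agent.R210.FO.Pair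

variable {X : Type*} [MetricSpace X] [MeasurableSpace X] [BorelSpace X]
  [CompleteSpace X] [TopologicalSpace.SeparableSpace X] [ProperSpace X]
variable {m μ₀ μ₁ ν : Measure X} {K N R : ℝ} {M : ℝ≥0} {o : X} {a b : X → ℝ}

/-- `∫a dμ₀ - ∫a dν ≥ (s - s²/2) W₂²(μ₀,μ₁)` for a sub-intermediate point `ν` (weak duality for `(ν,μ₁)`,
equality for `(μ₀,μ₁)`).
Proof: `fo_kpair_eq`: `∫a dμ₀ + ∫b dμ₁ = W²/2`; `fo_weak_duality` for `(ν, μ₁)`: `∫a dν + ∫b dμ₁ ≤ W2sqR ν μ₁/2 ≤ (1-s)² W²/2` (`hI.2`, `fo_W2sqR_le_of_le`); subtract; `1 - (1-s)² = 2s - s²`.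
(`haveI := h0.prob` etc.; Lipschitz functions are continuous.) -/
theorem fo_kpair_low (h0 : BddDens m μ₀ M o R) (h1 : BddDens m μ₁ M o R) (hν : BddDens m ν M o R)
    (hK : KPair μ₀ μ₁ a b) {s : ℝ} (hI : fo_SubInter μ₀ μ₁ ν s) :
    (s - s ^ 2 / 2) * W2sqR μ₀ μ₁ ≤ ∫ x, a x ∂μ₀ - ∫ x, a x ∂ν := by
  have := h0.prob
  have := h1.prob
  have := hν.prob
  have hfin01 : W2sq μ₀ μ₁ < ∞ := fo_W2sq_lt_top h0 h1
  have hfinν1 : W2sq ν μ₁ < ∞ := fo_W2sq_lt_top hν h1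
  have e1 := fo_kpair_eq hfin01 hK
  obtain ⟨La, hLa⟩ := hK.lip_a
  obtain ⟨Lb, hLb⟩ := hK.lip_b
  have e2 := fo_weak_duality hfinν1 hLa.continuous hLb.continuous hK.bdd_a hK.bdd_b hK.le
  have e3 : W2sqR ν μ₁ ≤ (1 - s) ^ 2 * W2sqR μ₀ μ₁ :=
    fo_W2sqR_le_of_le (sq_nonneg _) hfin01 hI.2
  nlinarith [e1, e2, e3]

/-- **FO2**: first order differentiation along sub-intermediate points with bounded densities.
Proof: `V := W2sqR μ₀ μ₁`; `fo_abstract` for `g` and for `fun x => -g x` (`fo_need_neg`) with `a` (`fo_need_lip hS hK.lip_a`), `hDa := fo_kpair_grad`, `hW2` from `hI.1` + `fo_W2sqR_le_of_le`, `hlow := fo_kpair_low`.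
`∫Γ(-g,a) dμ₀ = -∫Γ(g,a) dμ₀` (`fo_need_gamma_neg`, `fo_bdd_ae`, `integral_congr_ae`, `integral_neg`), `∫(-g) = -∫g`.  So for all `ε`: eventually `|quotient + ∫Γ(g,a) dμ₀| ≤ ε`; `Metric.tendsto_nhds`. -/
theorem fo_pair (hS : Std m K N) (h0 : BddDens m μ₀ M o R) (h1 : BddDens m μ₁ M o R)
    (hK : KPair μ₀ μ₁ a b) {g : X → ℝ} (hg : LocalSobolev m g) {ι : Type*} {l : Filter ι}
    {μ : ι → Measure X} {s : ι → ℝ} (hμ : ∀ᶠ i in l, BddDens m (μ i) M o R)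
    (hs : ∀ᶠ i in l, 0 < s i) (hs0 : Tendsto s l (𝓝 0))
    (hI : ∀ᶠ i in l, fo_SubInter μ₀ μ₁ (μ i) (s i)) :
    Tendsto (fun i => (∫ x, g x ∂(μ i) - ∫ x, g x ∂μ₀) / s i) l
      (𝓝 (-(∫ x, gamma m g a x ∂μ₀))) := by
  have hfin01 : W2sq μ₀ μ₁ < ∞ := fo_W2sq_lt_top h0 h1
  have hV : 0 ≤ W2sqR μ₀ μ₁ := fo_W2sqR_nonneg _ _
  have ha : LocalSobolev m a := fo_need_lip hS hK.lip_a
  have hDa := fo_kpair_grad hS h0 h1 hK
  have hW2 : ∀ᶠ i in l, W2sqR μ₀ (μ i) ≤ s i ^ 2 * W2sqR μ₀ μ₁ := by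
    filter_upwards [hI] with i hi
    exact fo_W2sqR_le_of_le (sq_nonneg _) hfin01 hi.1
  have hlow : ∀ᶠ i in l,
      (s i - s i ^ 2 / 2) * W2sqR μ₀ μ₁ ≤ ∫ x, a x ∂μ₀ - ∫ x, a x ∂(μ i) := by
    filter_upwards [hI, hμ] with i hi hμi
    exact fo_kpair_low h0 h1 hμi hK hi
  have A := fo_abstract hS h0 hμ ha hg hV hDa hs hs0 hW2 hlow
  have B := fo_abstract hS h0 hμ ha (fo_need_neg hS hg) hV hDa hs hs0 hW2 hlow
  have hΓ : ∫ x, gamma m (fun y => -g y) a x ∂μ₀ = -∫ x, gamma m g a x ∂μ₀ := by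
    rw [← integral_neg]
    exact integral_congr_ae (fo_bdd_ae h0 (fo_need_gamma_neg hS ha hg))
  rw [Metric.tendsto_nhds]
  intro ε hε
  filter_upwards [A (ε / 2) (by positivity), B (ε / 2) (by positivity)] with i hA hB
  rw [hΓ, integral_neg, integral_neg] at hB
  have hq : (-∫ x, g x ∂(μ i) - -∫ x, g x ∂μ₀) / s i
      = -((∫ x, g x ∂(μ i) - ∫ x, g x ∂μ₀) / s i) := by ring
  rw [hq] at hB
  rw [Real.dist_eq, abs_lt]
  constructor <;> linarith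

end Claimed.Agent.R210.FO.Pair2
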