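/-
Row 210 (S0432), layer FO, architect helper920.   FO3, FO4: derivatives of `t ↦ ∫ g d(e_t)_#π` along a
geodesic plan; independence of the pair.
-/
import Claimed.Agent.R210.FO.Pair2

set_option autoImplicit false
set_option linter.unusedSectionVars false

open Claims.C0366 Claims.C0366.WeakHessian
open Set Filter MeasureTheory
open scoped ENNReal NNReal Topology

namespace Claimed.Agent.R210.FO.Deriv

open Claimed.Agent.R210.Defs Claimed.Agent.R210.FO.Defs Claimed.Agent.R210.FO.Basic Claimed.Agent.R210.FO.W2 Claimed.Agent.R210.FO.Plan Claimed.Agent.R210.FO.Plan2 Claimed.Agent.R210.FO.Pair2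

variable {X : Type*} [MetricSpace X] [MeasurableSpace X] [BorelSpace X]
  [CompleteSpace X] [TopologicalSpace.SeparableSpace X] [ProperSpace X]
variable {m μ₀ μ₁ : Measure X} {π : Measure (Curve X)} {K N R : ℝ} {C M₀ M₁ M : ℝ≥0} {o : X}
  {a b a' b' g : X → ℝ}

theorem fo_deriv_aux (hS : Std m K N) (h : GeoPlan m μ₀ μ₁ π C) (h0 : BddDens m μ₀ M₀ o R)
    (h1 : BddDens m μ₁ M₁ o R) {u v : ℝ} (hu : u ∈ Icc (0 : ℝ) 1) (hv : v ∈ Icc (0 : ℝ) 1) (huv : u ≠ v)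
    (hK : KPair (fo_mu π u) (fo_mu π v) a b) (hg : LocalSobolev m g) {l : Filter ℝ} (hl : l ≤ 𝓝 u)
    (hl1 : ∀ᶠ t in l, t ∈ uIcc u v) (hl2 : ∀ᶠ t in l, 0 < (t - u) / (v - u)) :
    Tendsto (slope (fun t : ℝ => ∫ x, g x ∂(fo_mu π t)) u) l
      (𝓝 (-((v - u)⁻¹ * ∫ x, gamma m g a x ∂(fo_mu π u)))) := by
  have hvu : v - u ≠ 0 := sub_ne_zero.2 huv.symm
  have hs0 : Tendsto (fun t : ℝ => (t - u) / (v - u)) l (𝓝 0) := by
    have h1 : Tendsto (fun t : ℝ => (t - u) / (v - u)) (𝓝 u) (𝓝 ((u - u) / (v - u))) :=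
      ((continuous_id.sub continuous_const).div_const _).tendsto u
    rw [sub_self, zero_div] at h1
    exact h1.mono_left hl
  have key := fo_pair hS (fo_mu_bdd h h0 h1 u) (fo_mu_bdd h h0 h1 v) hK hg (l := l) (μ := fo_mu π)
    (s := fun t => (t - u) / (v - u)) (Eventually.of_forall fun t => fo_mu_bdd h h0 h1 t) hl2 hs0
    (hl1.mono fun t ht => fo_mu_subInter h h0 h1 hu hv huv ht)
  have key2 := key.const_mul (v - u)⁻¹
  have e : (v - u)⁻¹ * -(∫ x, gamma m g a x ∂(fo_mu π u)) =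
      -((v - u)⁻¹ * ∫ x, gamma m g a x ∂(fo_mu π u)) := by ring
  rw [e] at key2
  refine key2.congr' (hl2.mono fun t ht => ?_)
  have htu : t - u ≠ 0 := by
    intro h0
    rw [h0, zero_div] at ht
    exact lt_irrefl _ ht
  rw [slope_def_field]
  field_simp

/-- **FO3, general right derivative**: `0 ≤ u < v ≤ 1`, `(a,b)` a Kantorovich pair of `(μ_u, μ_v)`.
Proof: `hasDerivWithinAt_Ioi_iff_Ici`, `hasDerivWithinAt_iff_tendsto_slope'` : to show `Tendsto (slope Φ u) (𝓝[>] u) (𝓝 _)`.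
`fo_pair` with `μ₀ := fo_mu π u`, `μ₁ := fo_mu π v` (both `BddDens m _ C o (3R)`, `fo_mu_bdd`), `l := 𝓝[>] u`, `μ := fo_mu π`, `s t := (t-u)/(v-u)`:
eventually `t ∈ Ioo u v` (`Ioo_mem_nhdsGT`), so `0 < s t` and `fo_mu_subInter` applies; `s → 0`.
`slope Φ u t = (t-u)⁻¹ (Φ t - Φ u) = (v-u)⁻¹ * ((Φ t - Φ u)/s t)`; `Tendsto.const_mul`, `Tendsto.congr'`. -/
theorem fo_deriv_right (hS : Std m K N) (h : GeoPlan m μ₀ μ₁ π C) (h0 : BddDens m μ₀ M₀ o R)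
    (h1 : BddDens m μ₁ M₁ o R) {u v : ℝ} (hu : 0 ≤ u) (huv : u < v) (hv : v ≤ 1)
    (hK : KPair (fo_mu π u) (fo_mu π v) a b) (hg : LocalSobolev m g) :
    HasDerivWithinAt (fun t : ℝ => ∫ x, g x ∂(fo_mu π t))
      (-((v - u)⁻¹ * ∫ x, gamma m g a x ∂(fo_mu π u))) (Ici u) u := by
  rw [← hasDerivWithinAt_Ioi_iff_Ici, hasDerivWithinAt_iff_tendsto_slope' (by simp)]
  have hmem : ∀ᶠ t in 𝓝[>] u, t ∈ Ioo u v := Ioo_mem_nhdsGT huv
  refine fo_deriv_aux hS h h0 h1 ⟨hu, huv.le.trans hv⟩ ⟨hu.trans huv.le, hv⟩ huv.ne hK hg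
    nhdsWithin_le_nhds (hmem.mono fun t ht => ?_) (hmem.mono fun t ht => ?_)
  · rw [uIcc_of_le huv.le]; exact ⟨ht.1.le, ht.2.le⟩
  · exact div_pos (sub_pos.2 ht.1) (sub_pos.2 huv)

/-- **FO3, general left derivative**: `0 ≤ v < u ≤ 1`, `(a,b)` a Kantorovich pair of `(μ_u, μ_v)`.
Same proof with `l := 𝓝[<] u`, `s t := (t-u)/(v-u) > 0` for `t ∈ Ioo v u`; `slope Φ u t = (v-u)⁻¹ * ((Φ t - Φ u)/s t) → -(v-u)⁻¹ ∫Γ = (u-v)⁻¹ ∫Γ`. -/
theorem fo_deriv_left (hS : Std m K N) (h : GeoPlan m μ₀ μ₁ π C) (h0 : BddDens m μ₀ M₀ o R)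
    (h1 : BddDens m μ₁ M₁ o R) {u v : ℝ} (hv : 0 ≤ v) (hvu : v < u) (hu : u ≤ 1)
    (hK : KPair (fo_mu π u) (fo_mu π v) a b) (hg : LocalSobolev m g) :
    HasDerivWithinAt (fun t : ℝ => ∫ x, g x ∂(fo_mu π t))
      ((u - v)⁻¹ * ∫ x, gamma m g a x ∂(fo_mu π u)) (Iic u) u := by
  rw [← hasDerivWithinAt_Iio_iff_Iic, hasDerivWithinAt_iff_tendsto_slope' (by simp)]
  have hmem : ∀ᶠ t in 𝓝[<] u, t ∈ Ioo v u := Ioo_mem_nhdsLT hvu
  have e : (u - v)⁻¹ * ∫ x, gamma m g a x ∂(fo_mu π u) =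
      -((v - u)⁻¹ * ∫ x, gamma m g a x ∂(fo_mu π u)) := by
    rw [← neg_sub u v, inv_neg]; ring
  rw [e]
  refine fo_deriv_aux hS h h0 h1 ⟨hv.trans hvu.le, hu⟩ ⟨hv, hvu.le.trans hu⟩ hvu.ne' hK hg
    nhdsWithin_le_nhds (hmem.mono fun t ht => ?_) (hmem.mono fun t ht => ?_)
  · rw [uIcc_of_ge hvu.le]; exact ⟨ht.1.le, ht.2.le⟩
  · exact div_pos_of_neg_of_neg (sub_neg.2 ht.2) (sub_neg.2 hvu)

end Claimed.Agent.R210.FO.Deriv
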