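/-
Row 210 (S0432), layer FO, architect helper920.   FO3 (special cases) and FO4.
-/
import Claimed.Agent.R210.FO.Deriv

set_option autoImplicit false
set_option linter.unusedSectionVars false

open Claims.C0366 Claims.C0366.WeakHessian
open Set Filter MeasureTheory
open scoped ENNReal NNReal Topology

namespace Claimed.Agent.R210.FO.Deriv2

open Claimed.Agent.R210.Defs Claimed.Agent.R210.FO.Defs Claimed.Agent.R210.FO.Basic Claimed.Agent.R210.FO.W2 Claimed.Agent.R210.FO.Dual Claimed.Agent.R210.FO.Plan Claimed.Agent.R210.FO.Plan2 Claimed.Agent.R210.FO.Abs Claimed.Agent.R210.FO.Pair2 Claimed.Agent.R210.FO.Deriv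

variable {X : Type*} [MetricSpace X] [MeasurableSpace X] [BorelSpace X]
  [CompleteSpace X] [TopologicalSpace.SeparableSpace X] [ProperSpace X]
variable {m μ₀ μ₁ : Measure X} {π : Measure (Curve X)} {K N R : ℝ} {C M₀ M₁ M : ℝ≥0} {o : X}
  {a b a' b' g : X → ℝ}

/-- **FO3** at `t = 0`: `fo_deriv_right` with `u = 0`, `v = 1`, `fo_mu_zero`, `fo_mu_one`. -/
theorem fo_deriv_zero (hS : Std m K N) (h : GeoPlan m μ₀ μ₁ π C) (h0 : BddDens m μ₀ M₀ o R)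
    (h1 : BddDens m μ₁ M₁ o R) (hK : KPair μ₀ μ₁ a b) (hg : LocalSobolev m g) :
    HasDerivWithinAt (fun t : ℝ => ∫ x, g x ∂(fo_mu π t))
      (-(∫ x, gamma m g a x ∂μ₀)) (Ici 0) 0 := by
  have hK' : KPair (fo_mu π 0) (fo_mu π 1) a b := by rw [fo_mu_zero h, fo_mu_one h]; exact hK
  have := fo_deriv_right hS h h0 h1 le_rfl zero_lt_one le_rfl hK' hg
  rw [fo_mu_zero h] at this
  simpa using this

/-- **FO3** at `t = 1`: `fo_deriv_left` with `u = 1`, `v = 0` and the swapped pair `fo_kpair_swap hK`. -/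
theorem fo_deriv_one (hS : Std m K N) (h : GeoPlan m μ₀ μ₁ π C) (h0 : BddDens m μ₀ M₀ o R)
    (h1 : BddDens m μ₁ M₁ o R) (hK : KPair μ₀ μ₁ a b) (hg : LocalSobolev m g) :
    HasDerivWithinAt (fun t : ℝ => ∫ x, g x ∂(fo_mu π t))
      (∫ x, gamma m g b x ∂μ₁) (Iic 1) 1 := by
  have hK' : KPair (fo_mu π 1) (fo_mu π 0) b a := by
    rw [fo_mu_zero h, fo_mu_one h]; exact fo_kpair_swap hK
  have := fo_deriv_left hS h h0 h1 le_rfl zero_lt_one le_rfl hK' hg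
  rw [fo_mu_one h] at this
  simpa using this

/-- **FO3** at `0 ≤ s < 1`, with a Kantorovich pair of `(μ_s, μ₁)`. -/
theorem fo_deriv_mid (hS : Std m K N) (h : GeoPlan m μ₀ μ₁ π C) (h0 : BddDens m μ₀ M₀ o R)
    (h1 : BddDens m μ₁ M₁ o R) {s : ℝ} (hs0 : 0 ≤ s) (hs1 : s < 1)
    (hK : KPair (fo_mu π s) μ₁ a b) (hg : LocalSobolev m g) :
    HasDerivWithinAt (fun t : ℝ => ∫ x, g x ∂(fo_mu π t))
      (-((1 - s)⁻¹ * ∫ x, gamma m g a x ∂(fo_mu π s))) (Ici s) s := by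
  have hK' : KPair (fo_mu π s) (fo_mu π 1) a b := by rw [fo_mu_one h]; exact hK
  exact fo_deriv_right hS h h0 h1 hs0 hs1 le_rfl hK' hg

/-- **FO4 (a)**: `∫Γ(g,a) dμ₀` does not depend on the Kantorovich pair: take `π` from `fo_exists_plan`, `fo_deriv_zero` for both pairs,
uniqueness of the derivative (`(uniqueDiffWithinAt_Ici 0).eq_deriv`). -/
theorem fo_indep (hS : Std m K N) (h0 : BddDens m μ₀ M o R) (h1 : BddDens m μ₁ M o R)
    (hK : KPair μ₀ μ₁ a b) (hK' : KPair μ₀ μ₁ a' b') (hg : LocalSobolev m g) :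
    ∫ x, gamma m g a x ∂μ₀ = ∫ x, gamma m g a' x ∂μ₀ := by
  obtain ⟨π, hπ⟩ := fo_exists_plan hS h0 h1
  have e1 := fo_deriv_zero hS hπ h0 h1 hK hg
  have e2 := fo_deriv_zero hS hπ h0 h1 hK' hg
  have := (uniqueDiffWithinAt_Ici (0 : ℝ)).eq_deriv _ e1 e2
  linarith

/-- **FO4 (b)**: `(a',b')` a Kantorovich pair of `(μ₁, μ_s)`, `(a,b)` one of `(μ₀,μ₁)`:
`∫Γ(g,a') dμ₁ = (1-s) ∫Γ(g,b) dμ₁`.
Proof: `fo_deriv_one` and `fo_deriv_left` with `u = 1`, `v = s` (pair `(a',b')`, `fo_mu_one`) compute the same left derivative at `1`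
(`(uniqueDiffWithinAt_Iic 1).eq_deriv`): `∫Γ(g,b) dμ₁ = (1-s)⁻¹ ∫Γ(g,a') dμ₁`. -/
theorem fo_back (hS : Std m K N) (h : GeoPlan m μ₀ μ₁ π C) (h0 : BddDens m μ₀ M₀ o R)
    (h1 : BddDens m μ₁ M₁ o R) (hK : KPair μ₀ μ₁ a b) {s : ℝ} (hs0 : 0 ≤ s) (hs1 : s < 1)
    (hK' : KPair μ₁ (fo_mu π s) a' b') (hg : LocalSobolev m g) :
    ∫ x, gamma m g a' x ∂μ₁ = (1 - s) * ∫ x, gamma m g b x ∂μ₁ := by
  have e1 := fo_deriv_one hS h h0 h1 hK hg
  have hK'' : KPair (fo_mu π 1) (fo_mu π s) a' b' := by rw [fo_mu_one h]; exact hK'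
  have e2 := fo_deriv_left hS h h0 h1 hs0 hs1 le_rfl hK'' hg
  rw [fo_mu_one h] at e2
  have := (uniqueDiffWithinAt_Iic (1 : ℝ)).eq_deriv _ e1 e2
  have hs : (1 - s) ≠ 0 := by linarith
  rw [this]
  field_simp

/-- **FO3** at `t = 0`, along the times `2^{-n}` (form asked for by layer EV). -/
theorem fo_deriv_zero_half (hS : Std m K N) (h : GeoPlan m μ₀ μ₁ π C) (h0 : BddDens m μ₀ M₀ o R)
    (h1 : BddDens m μ₁ M₁ o R) (hK : KPair μ₀ μ₁ a b) (hg : LocalSobolev m g) :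
    Tendsto (fun n : ℕ => (2 : ℝ) ^ n *
        (∫ x, g x ∂(interpolation π (GM.Defs.gm_half n)) - ∫ x, g x ∂μ₀)) atTop
      (𝓝 (-(∫ x, gamma m g a x ∂μ₀))) := by
  have hd := fo_deriv_zero hS h h0 h1 hK hg
  rw [hasDerivWithinAt_iff_tendsto_slope] at hd
  have hseq : Tendsto (fun n : ℕ => ((1 / 2 : ℝ)) ^ n) atTop (𝓝[Ici 0 \ {0}] 0) := by
    rw [tendsto_nhdsWithin_iff]
    refine ⟨tendsto_pow_atTop_nhds_zero_of_lt_one (by norm_num) (by norm_num), ?_⟩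
    refine Eventually.of_forall fun n => ⟨?_, ?_⟩
    · exact (by positivity : (0 : ℝ) ≤ (1 / 2 : ℝ) ^ n)
    · have : (0 : ℝ) < (1 / 2 : ℝ) ^ n := by positivity
      exact this.ne'
  refine (hd.comp hseq).congr fun n => ?_
  have e1 : fo_mu π ((1 / 2 : ℝ) ^ n) = interpolation π (GM.Defs.gm_half n) :=
    fo_mu_coe π (GM.Defs.gm_half n)
  simp only [Function.comp, slope_def_field, e1, fo_mu_zero h, sub_zero]
  rw [one_div, inv_pow, div_inv_eq_mul, mul_comm]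

end Claimed.Agent.R210.FO.Deriv2
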