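/-
Row 210 (S0432), layer FO (first order differentiation formula), architect helper920.      INTERFACE FILE.
Consumers:  `import Claimed.Agent.R210.FO.Ifc`  and
            `open Claimed.Agent.R210.Defs Claimed.Agent.R210.FO.Defs Claimed.Agent.R210.FO.Ifc`.
Definitions (FO/Defs.lean): `fo_mu π t` (marginal of a plan at the REAL time `t`, `= interpolation π (clampTime t)`),
`fo_SubInter μ₀ μ₁ ν s` (`W2sq μ₀ ν ≤ s² W2sq μ₀ μ₁`, `W2sq ν μ₁ ≤ (1-s)² W2sq μ₀ μ₁`; implied by `Defs.IsInter`), `fo_asc` (ascending slope).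
Contents:
* integrability w.r.t. `BddDens` measures: `fo_integrable`, `fo_integrable_wg_sq`, `fo_integrable_gamma`, `fo_bdd_integrable`, ...
* FO0 `fo_weak_quant`, `fo_lip_dense`, `fo_weak_tendsto`;
* marginals of a `GeoPlan`: `fo_mu_zero/one/coe`, `fo_mu_bdd`, `fo_mu_W2_le`, `fo_mu_W2_eq`, `fo_mu_subInter`, `fo_mu_continuous`;
* `fo_ug` (upper gradient inequality along a geodesic plan, after Young);
* FO1 `fo_abstract` (filter version, "eventually" form of the liminf inequality), `fo_step` (no limit);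
* FO2 `fo_pair`, with `fo_kpair_grad`, `fo_kpair_low`;
* FO3 `fo_deriv_right`, `fo_deriv_left`, `fo_deriv_zero`, `fo_deriv_one`, `fo_deriv_mid` (`HasDerivWithinAt` on `Ici`/`Iic`);
* FO4 `fo_indep`, `fo_back`.
-/
import Claimed.Agent.R210.FO.Deriv2

set_option autoImplicit false
set_option linter.unusedSectionVars false

open Claims.C0366 Claims.C0366.WeakHessian
open Set Filter MeasureTheory
open scoped ENNReal NNReal Topology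

namespace Claimed.Agent.R210.FO.Ifc

open Claimed.Agent.R210.Defs Claimed.Agent.R210.FO.Defs

variable {X : Type*} [MetricSpace X] [MeasurableSpace X] [BorelSpace X]
  [CompleteSpace X] [TopologicalSpace.SeparableSpace X] [ProperSpace X]
variable {m μ ν μ₀ μ₁ : Measure X} {π : Measure (Curve X)} {K N R R' : ℝ}
  {C C₁ C₂ M M' M₀ M₁ : ℝ≥0} {o : X} {a b a' b' g : X → ℝ}

/-! ### `BddDens`, integrability -/

theorem fo_bdd_mono (h : BddDens m μ M o R) (hM : M ≤ M') (hR : R ≤ R') : BddDens m μ M' o R' :=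
  Basic.fo_bdd_mono h hM hR

theorem fo_bdd_ae (h : BddDens m μ M o R) {P : X → Prop} (hP : ∀ᵐ x ∂m, P x) : ∀ᵐ x ∂μ, P x :=
  Basic.fo_bdd_ae h hP

theorem fo_bdd_integrable (h : BddDens m μ M o R) {ψ : X → ℝ}
    (hψ : IntegrableOn ψ (Metric.closedBall o R) m) : Integrable ψ μ :=
  Basic.fo_bdd_integrable h hψ

theorem fo_bdd_integral_abs_le (h : BddDens m μ M o R) {ψ : X → ℝ}
    (hψ : IntegrableOn ψ (Metric.closedBall o R) m) :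
    ∫ x, |ψ x| ∂μ ≤ M * ∫ x in Metric.closedBall o R, |ψ x| ∂m :=
  Basic.fo_bdd_integral_abs_le h hψ

theorem fo_wg_sq_integrableOn {f : X → ℝ} (hf : LocalSobolev m f) (o : X) (R : ℝ) :
    IntegrableOn (fun x => weakGradient m f x ^ 2) (Metric.closedBall o R) m :=
  Basic.fo_wg_sq_integrableOn hf o R

theorem fo_gamma_integrableOn (hS : Std m K N) {f g : X → ℝ} (hf : LocalSobolev m f)
    (hg : LocalSobolev m g) (o : X) (R : ℝ) :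
    IntegrableOn (gamma m f g) (Metric.closedBall o R) m :=
  Basic.fo_gamma_integrableOn hS hf hg o R

theorem fo_integrable (hfin : FiniteOnBoundedSets m) (h : BddDens m μ M o R) {f : X → ℝ}
    (hf : LocalSobolev m f) : Integrable f μ :=
  Basic.fo_integrable hfin h hf

theorem fo_integrable_wg_sq (h : BddDens m μ M o R) {f : X → ℝ} (hf : LocalSobolev m f) :
    Integrable (fun x => weakGradient m f x ^ 2) μ :=
  Basic.fo_integrable_wg_sq h hf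

theorem fo_integrable_gamma (hS : Std m K N) (h : BddDens m μ M o R) {f g : X → ℝ}
    (hf : LocalSobolev m f) (hg : LocalSobolev m g) : Integrable (gamma m f g) μ :=
  Basic.fo_integrable_gamma hS h hf hg

/-! ### FO0: the weak-star lemma -/

/-- **FO0, quantitative form.** -/
theorem fo_weak_quant (hfin : FiniteOnBoundedSets m) (hμ : BddDens m μ C₁ o R)
    (hν : BddDens m ν C₂ o R) {ψ ψ' : X → ℝ} (hψ : IntegrableOn ψ (Metric.closedBall o R) m)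
    {L : ℝ≥0} (hψ' : LipschitzWith L ψ') :
    |∫ x, ψ x ∂ν - ∫ x, ψ x ∂μ|
      ≤ ((C₁ : ℝ) + C₂) * ∫ x in Metric.closedBall o R, |ψ x - ψ' x| ∂m
        + L * Real.sqrt (W2sqR μ ν) :=
  Weak.fo_weak_quant hfin hμ hν hψ hψ'

/-- Lipschitz functions are dense in `L¹(closedBall, m)`. -/
theorem fo_lip_dense (hfin : FiniteOnBoundedSets m) {ψ : X → ℝ}
    (hψ : IntegrableOn ψ (Metric.closedBall o R) m) {η : ℝ} (hη : 0 < η) :
    ∃ (L : ℝ≥0) (ψ' : X → ℝ), LipschitzWith L ψ' ∧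
      ∫ x in Metric.closedBall o R, |ψ x - ψ' x| ∂m ≤ η :=
  Dense.fo_lip_dense hfin hψ hη

/-- **FO0** along an arbitrary filter. -/
theorem fo_weak_tendsto (hfin : FiniteOnBoundedSets m) {ι : Type*} {l : Filter ι}
    {νs : ι → Measure X} (hμ : BddDens m μ C o R) (hν : ∀ᶠ i in l, BddDens m (νs i) C o R)
    (hW : Tendsto (fun i => W2sqR μ (νs i)) l (𝓝 0)) {ψ : X → ℝ}
    (hψ : IntegrableOn ψ (Metric.closedBall o R) m) :
    Tendsto (fun i => ∫ x, ψ x ∂(νs i)) l (𝓝 (∫ x, ψ x ∂μ)) :=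
  Weak.fo_weak_tendsto hfin hμ hν hW hψ

/-! ### marginals of a geodesic plan -/

theorem fo_mu_eq_map (π : Measure (Curve X)) (t : ℝ) :
    fo_mu π t = Measure.map (fun γ : Curve X => evalReal γ t) π := rfl

theorem fo_mu_coe (π : Measure (Curve X)) (t : Time) : fo_mu π (t : ℝ) = interpolation π t :=
  Plan.fo_mu_coe π t

theorem fo_mu_zero (h : GeoPlan m μ₀ μ₁ π C) : fo_mu π 0 = μ₀ := Plan.fo_mu_zero h

theorem fo_mu_one (h : GeoPlan m μ₀ μ₁ π C) : fo_mu π 1 = μ₁ := Plan.fo_mu_one h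

theorem fo_mu_bdd_of_tracks (h : GeoPlan m μ₀ μ₁ π C)
    (htr : ∀ᵐ γ ∂π, ∀ t : Time, dist (γ t) o ≤ R') (t : ℝ) : BddDens m (fo_mu π t) C o R' :=
  Plan.fo_mu_bdd_of_tracks h htr t

theorem fo_mu_bdd (h : GeoPlan m μ₀ μ₁ π C) (h0 : BddDens m μ₀ M₀ o R) (h1 : BddDens m μ₁ M₁ o R)
    (t : ℝ) : BddDens m (fo_mu π t) C o (3 * R) :=
  Plan.fo_mu_bdd h h0 h1 t

theorem fo_mu_W2_le (h : GeoPlan m μ₀ μ₁ π C) {u v : ℝ} (hu : u ∈ Icc (0 : ℝ) 1)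
    (hv : v ∈ Icc (0 : ℝ) 1) :
    W2sq (fo_mu π u) (fo_mu π v) ≤ ENNReal.ofReal ((v - u) ^ 2) * W2sq μ₀ μ₁ :=
  Plan.fo_mu_W2_le h hu hv

theorem fo_mu_W2_eq (h : GeoPlan m μ₀ μ₁ π C) (h0 : BddDens m μ₀ M₀ o R) (h1 : BddDens m μ₁ M₁ o R)
    {u v : ℝ} (hu : u ∈ Icc (0 : ℝ) 1) (hv : v ∈ Icc (0 : ℝ) 1) :
    W2sq (fo_mu π u) (fo_mu π v) = ENNReal.ofReal ((v - u) ^ 2) * W2sq μ₀ μ₁ :=
  Plan2.fo_mu_W2_eq h h0 h1 hu hv

theorem fo_mu_subInter (h : GeoPlan m μ₀ μ₁ π C) (h0 : BddDens m μ₀ M₀ o R)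
    (h1 : BddDens m μ₁ M₁ o R) {u v t : ℝ} (hu : u ∈ Icc (0 : ℝ) 1) (hv : v ∈ Icc (0 : ℝ) 1)
    (huv : u ≠ v) (ht : t ∈ uIcc u v) :
    fo_SubInter (fo_mu π u) (fo_mu π v) (fo_mu π t) ((t - u) / (v - u)) :=
  Plan2.fo_mu_subInter h h0 h1 hu hv huv ht

/-- `t ↦ ∫ ψ d(fo_mu π t)` is continuous on `ℝ`. -/
theorem fo_mu_continuous (hfin : FiniteOnBoundedSets m) (h : GeoPlan m μ₀ μ₁ π C)
    (h0 : BddDens m μ₀ M₀ o R) (h1 : BddDens m μ₁ M₁ o R) {ψ : X → ℝ}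
    (hψ : IntegrableOn ψ (Metric.closedBall o (3 * R)) m) :
    Continuous (fun t : ℝ => ∫ x, ψ x ∂(fo_mu π t)) :=
  Plan2.fo_mu_continuous hfin h h0 h1 hψ

theorem fo_subInter_of_isInter {s : ℝ} (h : IsInter μ₀ μ₁ ν s) : fo_SubInter μ₀ μ₁ ν s :=
  W2.fo_subInter_of_isInter h

/-! ### Kantorovich pairs, `W2sq` -/

theorem fo_kpair_swap (hK : KPair μ ν a b) : KPair ν μ b a := Dual.fo_kpair_swap hK

theorem fo_W2sq_comm (μ ν : Measure X) : W2sq μ ν = W2sq ν μ := W2.fo_W2sq_comm μ ν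

theorem fo_W2sqR_comm (μ ν : Measure X) : W2sqR μ ν = W2sqR ν μ := W2.fo_W2sqR_comm μ ν

theorem fo_W2sq_lt_top (h0 : BddDens m μ M₀ o R) (h1 : BddDens m ν M₁ o R) : W2sq μ ν < ∞ :=
  W2.fo_W2sq_lt_top h0 h1

/-- Lipschitz functions and `W₂`: `|∫ψ dν - ∫ψ dμ| ≤ L W₂(μ,ν)`. -/
theorem fo_lip_W2 (h0 : BddDens m μ M₀ o R) (h1 : BddDens m ν M₁ o R) {L : ℝ≥0} {ψ : X → ℝ}
    (hψ : LipschitzWith L ψ) :
    |∫ x, ψ x ∂ν - ∫ x, ψ x ∂μ| ≤ L * Real.sqrt (W2sqR μ ν) :=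
  Dual.fo_lip_W2 h0 h1 hψ

/-! ### upper gradient inequality along a geodesic plan -/

theorem fo_ug (hfin : FiniteOnBoundedSets m) (h : GeoPlan m μ ν π C) (h0 : BddDens m μ M₀ o R)
    (h1 : BddDens m ν M₁ o R) {f : X → ℝ} (hf : LocalSobolev m f) {s B : ℝ} (hs : 0 < s)
    (hB : ∀ r ∈ Icc (0 : ℝ) 1, ∫ x, weakGradient m f x ^ 2 ∂(fo_mu π r) ≤ B) :
    ∫ x, f x ∂μ - ∫ x, f x ∂ν ≤ s / 2 * B + W2sqR μ ν / (2 * s) :=
  UG2.fo_ug hfin h h0 h1 hf hs hB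

/-! ### FO1 -/

/-- **FO1** (abstract first order inequality), along an arbitrary filter, in "eventually" form
(equivalent to `liminf (∫g dμ_i - ∫g dμ0)/s_i ≥ -∫Γ(g,a) dμ0`).  `V` plays the role of `W²`. -/
theorem fo_abstract (hS : Std m K N) {ι : Type*} {l : Filter ι} {μ0 : Measure X}
    {μ : ι → Measure X} {s : ι → ℝ} (h0 : BddDens m μ0 M o R)
    (hμ : ∀ᶠ i in l, BddDens m (μ i) M o R) {a g : X → ℝ} (ha : LocalSobolev m a)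
    (hg : LocalSobolev m g) {V : ℝ} (hV : 0 ≤ V)
    (hDa : ∫ x, weakGradient m a x ^ 2 ∂μ0 ≤ V)
    (hs : ∀ᶠ i in l, 0 < s i) (hs0 : Tendsto s l (𝓝 0))
    (hW2 : ∀ᶠ i in l, W2sqR μ0 (μ i) ≤ s i ^ 2 * V)
    (hlow : ∀ᶠ i in l, (s i - s i ^ 2 / 2) * V ≤ ∫ x, a x ∂μ0 - ∫ x, a x ∂(μ i)) :
    ∀ ε : ℝ, 0 < ε → ∀ᶠ i in l,
      -(∫ x, gamma m g a x ∂μ0) - ε ≤ (∫ x, g x ∂(μ i) - ∫ x, g x ∂μ0) / s i :=
  Abs2.fo_abstract hS h0 hμ ha hg hV hDa hs hs0 hW2 hlow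

/-! ### FO2 -/

/-- `∫|Da|² dμ₀ ≤ W₂²(μ₀,μ₁)` for a Kantorovich pair. -/
theorem fo_kpair_grad (hS : Std m K N) (h0 : BddDens m μ₀ M o R) (h1 : BddDens m μ₁ M o R)
    (hK : KPair μ₀ μ₁ a b) : ∫ x, weakGradient m a x ^ 2 ∂μ₀ ≤ W2sqR μ₀ μ₁ :=
  Pair.fo_kpair_grad hS h0 h1 hK

theorem fo_kpair_low (h0 : BddDens m μ₀ M o R) (h1 : BddDens m μ₁ M o R) (hν : BddDens m ν M o R)
    (hK : KPair μ₀ μ₁ a b) {s : ℝ} (hI : fo_SubInter μ₀ μ₁ ν s) :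
    (s - s ^ 2 / 2) * W2sqR μ₀ μ₁ ≤ ∫ x, a x ∂μ₀ - ∫ x, a x ∂ν :=
  Pair2.fo_kpair_low h0 h1 hν hK hI

/-- **FO2**: first order differentiation along sub-intermediate points with bounded densities. -/
theorem fo_pair (hS : Std m K N) (h0 : BddDens m μ₀ M o R) (h1 : BddDens m μ₁ M o R)
    (hK : KPair μ₀ μ₁ a b) (hg : LocalSobolev m g) {ι : Type*} {l : Filter ι}
    {μ : ι → Measure X} {s : ι → ℝ} (hμ : ∀ᶠ i in l, BddDens m (μ i) M o R)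
    (hs : ∀ᶠ i in l, 0 < s i) (hs0 : Tendsto s l (𝓝 0))
    (hI : ∀ᶠ i in l, fo_SubInter μ₀ μ₁ (μ i) (s i)) :
    Tendsto (fun i => (∫ x, g x ∂(μ i) - ∫ x, g x ∂μ₀) / s i) l
      (𝓝 (-(∫ x, gamma m g a x ∂μ₀))) :=
  Pair2.fo_pair hS h0 h1 hK hg hμ hs hs0 hI

/-! ### FO3 -/

/-- **FO3, general right derivative**: `0 ≤ u < v ≤ 1`, `(a,b)` a Kantorovich pair of `(μ_u, μ_v)`. -/
theorem fo_deriv_right (hS : Std m K N) (h : GeoPlan m μ₀ μ₁ π C) (h0 : BddDens m μ₀ M₀ o R)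
    (h1 : BddDens m μ₁ M₁ o R) {u v : ℝ} (hu : 0 ≤ u) (huv : u < v) (hv : v ≤ 1)
    (hK : KPair (fo_mu π u) (fo_mu π v) a b) (hg : LocalSobolev m g) :
    HasDerivWithinAt (fun t : ℝ => ∫ x, g x ∂(fo_mu π t))
      (-((v - u)⁻¹ * ∫ x, gamma m g a x ∂(fo_mu π u))) (Ici u) u :=
  Deriv.fo_deriv_right hS h h0 h1 hu huv hv hK hg

/-- **FO3, general left derivative**: `0 ≤ v < u ≤ 1`, `(a,b)` a Kantorovich pair of `(μ_u, μ_v)`. -/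
theorem fo_deriv_left (hS : Std m K N) (h : GeoPlan m μ₀ μ₁ π C) (h0 : BddDens m μ₀ M₀ o R)
    (h1 : BddDens m μ₁ M₁ o R) {u v : ℝ} (hv : 0 ≤ v) (hvu : v < u) (hu : u ≤ 1)
    (hK : KPair (fo_mu π u) (fo_mu π v) a b) (hg : LocalSobolev m g) :
    HasDerivWithinAt (fun t : ℝ => ∫ x, g x ∂(fo_mu π t))
      ((u - v)⁻¹ * ∫ x, gamma m g a x ∂(fo_mu π u)) (Iic u) u :=
  Deriv.fo_deriv_left hS h h0 h1 hv hvu hu hK hg

/-- **FO3** at `t = 0`. -/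
theorem fo_deriv_zero (hS : Std m K N) (h : GeoPlan m μ₀ μ₁ π C) (h0 : BddDens m μ₀ M₀ o R)
    (h1 : BddDens m μ₁ M₁ o R) (hK : KPair μ₀ μ₁ a b) (hg : LocalSobolev m g) :
    HasDerivWithinAt (fun t : ℝ => ∫ x, g x ∂(fo_mu π t))
      (-(∫ x, gamma m g a x ∂μ₀)) (Ici 0) 0 :=
  Deriv2.fo_deriv_zero hS h h0 h1 hK hg

/-- **FO3** at `t = 0`, along the times `2^{-n}` (form asked for by layer EV). -/
theorem fo_deriv_zero_half (hS : Std m K N) (h : GeoPlan m μ₀ μ₁ π C) (h0 : BddDens m μ₀ M₀ o R)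
    (h1 : BddDens m μ₁ M₁ o R) (hK : KPair μ₀ μ₁ a b) (hg : LocalSobolev m g) :
    Tendsto (fun n : ℕ => (2 : ℝ) ^ n *
        (∫ x, g x ∂(interpolation π (GM.Defs.gm_half n)) - ∫ x, g x ∂μ₀)) atTop
      (𝓝 (-(∫ x, gamma m g a x ∂μ₀))) :=
  Deriv2.fo_deriv_zero_half hS h h0 h1 hK hg

/-- **FO3** at `t = 1`. -/
theorem fo_deriv_one (hS : Std m K N) (h : GeoPlan m μ₀ μ₁ π C) (h0 : BddDens m μ₀ M₀ o R)
    (h1 : BddDens m μ₁ M₁ o R) (hK : KPair μ₀ μ₁ a b) (hg : LocalSobolev m g) :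
    HasDerivWithinAt (fun t : ℝ => ∫ x, g x ∂(fo_mu π t))
      (∫ x, gamma m g b x ∂μ₁) (Iic 1) 1 :=
  Deriv2.fo_deriv_one hS h h0 h1 hK hg

/-- **FO3** at `0 ≤ s < 1`, with a Kantorovich pair of `(μ_s, μ₁)`. -/
theorem fo_deriv_mid (hS : Std m K N) (h : GeoPlan m μ₀ μ₁ π C) (h0 : BddDens m μ₀ M₀ o R)
    (h1 : BddDens m μ₁ M₁ o R) {s : ℝ} (hs0 : 0 ≤ s) (hs1 : s < 1)
    (hK : KPair (fo_mu π s) μ₁ a b) (hg : LocalSobolev m g) :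
    HasDerivWithinAt (fun t : ℝ => ∫ x, g x ∂(fo_mu π t))
      (-((1 - s)⁻¹ * ∫ x, gamma m g a x ∂(fo_mu π s))) (Ici s) s :=
  Deriv2.fo_deriv_mid hS h h0 h1 hs0 hs1 hK hg

/-! ### FO4 -/

/-- **FO4 (a)**: `∫Γ(g,a) dμ₀` does not depend on the Kantorovich pair. -/
theorem fo_indep (hS : Std m K N) (h0 : BddDens m μ₀ M o R) (h1 : BddDens m μ₁ M o R)
    (hK : KPair μ₀ μ₁ a b) (hK' : KPair μ₀ μ₁ a' b') (hg : LocalSobolev m g) :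
    ∫ x, gamma m g a x ∂μ₀ = ∫ x, gamma m g a' x ∂μ₀ :=
  Deriv2.fo_indep hS h0 h1 hK hK' hg

/-- **FO4 (b)**: `(a',b')` a Kantorovich pair of `(μ₁, μ_s)`, `(a,b)` one of `(μ₀,μ₁)`:
`∫Γ(g,a') dμ₁ = (1-s) ∫Γ(g,b) dμ₁`. -/
theorem fo_back (hS : Std m K N) (h : GeoPlan m μ₀ μ₁ π C) (h0 : BddDens m μ₀ M₀ o R)
    (h1 : BddDens m μ₁ M₁ o R) (hK : KPair μ₀ μ₁ a b) {s : ℝ} (hs0 : 0 ≤ s) (hs1 : s < 1)
    (hK' : KPair μ₁ (fo_mu π s) a' b') (hg : LocalSobolev m g) :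
    ∫ x, gamma m g a' x ∂μ₁ = (1 - s) * ∫ x, gamma m g b x ∂μ₁ :=
  Deriv2.fo_back hS h h0 h1 hK hs0 hs1 hK' hg

end Claimed.Agent.R210.FO.Ifc
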